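import Mathlib

/-!
P164: real powers on the upper half-plane, with Taylor estimates above a fixed height.
-/

open Set Filter Complex
open scoped Topology

namespace Vale.Agent.P164

/-- The principal power with a real exponent. -/
noncomputable def pw (p : ℝ) (w : ℂ) : ℂ := w ^ (p : ℂ)

lemma measurable_pw (p : ℝ) : Measurable (pw p) := by
  unfold pw; fun_prop

lemma norm_pw (p : ℝ) (w : ℂ) : ‖pw p w‖ = ‖w‖ ^ p := norm_cpow_real w p

lemma pw_two (w : ℂ) : pw 2 w = w ^ 2 := by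
  simp [pw]

lemma pw_zero (w : ℂ) : pw 0 w = 1 := by simp [pw]

lemma pw_add {w : ℂ} (hw : w ≠ 0) (p q : ℝ) : pw (p + q) w = pw p w * pw q w := by
  simp [pw, cpow_add _ _ hw]

lemma pw_real_mul {a : ℝ} (ha : 0 < a) (p : ℝ) (w : ℂ) :
    pw p ((a : ℂ) * w) = ((a ^ p : ℝ) : ℂ) * pw p w := by
  rcases eq_or_ne w 0 with rfl | hw
  · rcases eq_or_ne p 0 with rfl | hp
    · simp [pw]
    · simp [pw, zero_cpow (ofReal_ne_zero.2 hp)]
  · have haC : (a : ℂ) ≠ 0 := ofReal_ne_zero.2 ha.ne'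
    rw [pw, pw, ofReal_cpow ha.le, cpow_def_of_ne_zero (mul_ne_zero haC hw),
      cpow_def_of_ne_zero haC, cpow_def_of_ne_zero hw, ← Complex.exp_add, ← add_mul,
      log_ofReal_mul ha hw, ofReal_log ha.le]

lemma hasDerivAt_pw (p : ℝ) {w : ℂ} (hw : 0 < w.im) :
    HasDerivAt (pw p) ((p : ℂ) * pw (p - 1) w) w := by
  have h := (hasDerivAt_id w).cpow_const (c := (p : ℂ))
    (Complex.mem_slitPlane_iff.2 (Or.inr hw.ne'))
  unfold pw
  simpa using h

lemma continuousAt_pw (p : ℝ) {w : ℂ} (hw : 0 < w.im) : ContinuousAt (pw p) w :=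
  (hasDerivAt_pw p hw).continuousAt

variable {y : ℝ} {a a' h : ℂ}

lemma le_norm_of_im (ha : y ≤ a.im) : y ≤ ‖a‖ :=
  ha.trans ((le_abs_self _).trans (Complex.abs_im_le_norm a))

lemma norm_pw_le_of_nonpos (hy : 0 < y) {p : ℝ} (hp : p ≤ 0) (ha : y ≤ a.im) :
    ‖pw p a‖ ≤ y ^ p := by
  rw [norm_pw]
  exact Real.rpow_le_rpow_of_nonpos hy (le_norm_of_im ha) hp

lemma pw_lipschitz (hy : 0 < y) {p : ℝ} (hp : p ≤ 1) (ha : y ≤ a.im) (ha' : y ≤ a'.im) :
    ‖pw p a' - pw p a‖ ≤ |p| * y ^ (p - 1) * ‖a' - a‖ := by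
  refine (convex_halfSpace_im_ge y).norm_image_sub_le_of_norm_hasDerivWithin_le
    (f' := fun w => (p : ℂ) * pw (p - 1) w)
    (fun w hw => (hasDerivAt_pw p (hy.trans_le hw)).hasDerivWithinAt) (fun w hw => ?_) ha ha'
  rw [norm_mul, Complex.norm_real, Real.norm_eq_abs]
  gcongr
  exact norm_pw_le_of_nonpos hy (by linarith) hw

/-- A first Taylor estimate above height `y`. -/
lemma taylor_one (hy : 0 < y) {f f' : ℂ → ℂ} {M : ℝ} {k : ℕ}
    (hf : ∀ w : ℂ, 0 < w.im → HasDerivAt f (f' w) w) (ha : y ≤ a.im) (hah : y ≤ (a + h).im)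
    (hM : 0 ≤ M) (hb : ∀ x : ℂ, y ≤ x.im → ‖f' x - f' a‖ ≤ M * ‖x - a‖ ^ k) :
    ‖f (a + h) - f a - f' a * h‖ ≤ M * ‖h‖ ^ (k + 1) := by
  have key := (convex_segment a (a + h)).norm_image_sub_le_of_norm_hasDerivWithin_le
    (f := fun x => f x - f' a * x) (f' := fun x => f' x - f' a) (C := M * ‖h‖ ^ k)
    (fun x hx => ?_) (fun x hx => ?_) (left_mem_segment ℝ _ _) (right_mem_segment ℝ _ _)
  · rw [add_sub_cancel_left] at key
    rw [pow_succ, ← mul_assoc]
    refine le_of_eq_of_le (congrArg _ ?_) key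
    ring
  · have hx' : y ≤ x.im := (convex_halfSpace_im_ge y).segment_subset ha hah hx
    refine (((hf x (hy.trans_le hx')).sub ((hasDerivAt_id x).const_mul (f' a))).congr_deriv
      ?_).hasDerivWithinAt
    simp
  · have hx' : y ≤ x.im := (convex_halfSpace_im_ge y).segment_subset ha hah hx
    refine (hb x hx').trans ?_
    gcongr
    rw [segment_eq_image'] at hx
    obtain ⟨θ, ⟨h0, h1⟩, rfl⟩ := hx
    simp only [add_sub_cancel_left, norm_smul, Real.norm_eq_abs, abs_of_nonneg h0]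
    exact mul_le_of_le_one_left (norm_nonneg _) h1

/-- First order, for exponents at most two. -/
lemma pw_taylor1 (hy : 0 < y) {b : ℝ} (hb : b ≤ 2) (ha : y ≤ a.im) (hah : y ≤ (a + h).im) :
    ‖pw b (a + h) - pw b a - (b : ℂ) * pw (b - 1) a * h‖ ≤
      |b| * |b - 1| * y ^ (b - 2) * ‖h‖ ^ 2 := by
  refine taylor_one hy (k := 1) (fun w hw => hasDerivAt_pw b hw) ha hah (by positivity)
    fun x hx => ?_
  rw [← mul_sub, norm_mul, Complex.norm_real, Real.norm_eq_abs, pow_one, mul_assoc, mul_assoc]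
  gcongr
  refine (pw_lipschitz hy (by linarith) ha hx).trans_eq ?_
  rw [show b - 1 - 1 = b - 2 by ring, mul_assoc]

/-- Second order, for exponents at most two. -/
lemma pw_taylor2 (hy : 0 < y) {b : ℝ} (hb : b ≤ 2) (ha : y ≤ a.im) (hah : y ≤ (a + h).im) :
    ‖pw b (a + h) - pw b a - (b : ℂ) * pw (b - 1) a * h -
        (b * (b - 1) / 2 : ℂ) * pw (b - 2) a * h ^ 2‖ ≤
      |b| * |b - 1| * |b - 2| * y ^ (b - 3) * ‖h‖ ^ 3 := by
  set M := |b| * |b - 1| * |b - 2| * y ^ (b - 3)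
  have key := taylor_one hy (k := 2)
    (f := fun x => pw b x - (b * (b - 1) / 2 : ℂ) * pw (b - 2) a * (x - a) ^ 2)
    (f' := fun x => (b : ℂ) * pw (b - 1) x - (b * (b - 1) : ℂ) * pw (b - 2) a * (x - a))
    (M := M) (fun w hw => ?_) ha hah (by positivity) (fun x hx => ?_)
  · refine le_of_eq_of_le (congrArg _ ?_) key
    simp
    ring
  · refine ((hasDerivAt_pw b hw).sub ((((hasDerivAt_id w).sub_const a).pow 2).const_mul _)).congr_deriv
      ?_
    simp
    ring
  · have h1 := taylor_one hy (k := 1) (f := fun w => (b : ℂ) * pw (b - 1) w)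
      (f' := fun w => (b * (b - 1) : ℂ) * pw (b - 2) w) (M := M) (a := a) (h := x - a)
      (fun w hw => ?_) ha (by rwa [add_sub_cancel]) (by positivity) fun z hz => ?_
    · rw [add_sub_cancel] at h1
      simp only [sub_self, mul_zero, sub_zero]
      rw [sub_right_comm]
      exact h1
    · refine ((hasDerivAt_pw (b - 1) hw).const_mul (b : ℂ)).congr_deriv ?_
      rw [show b - 1 - 1 = b - 2 by ring]
      push_cast
      ring
    · rw [← mul_sub, norm_mul, pow_one]
      have hn : ‖(b * (b - 1) : ℂ)‖ = |b| * |b - 1| := by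
        rw [norm_mul, ← ofReal_one, ← ofReal_sub, Complex.norm_real, Complex.norm_real,
          Real.norm_eq_abs, Real.norm_eq_abs]
      rw [hn]
      simp only [M, mul_assoc]
      gcongr
      refine (pw_lipschitz hy (by linarith) ha hz).trans_eq ?_
      rw [show b - 2 - 1 = b - 3 by ring, mul_assoc]

end Vale.Agent.P164
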