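import Vale.Agent.P164.Leaves

/-!
P164: for `0 < κ < 8` every gauge either works almost surely or fails almost surely.
-/

open Set Filter Metric MeasureTheory ProbabilityTheory Complex
open scoped NNReal ENNReal Topology

namespace Vale.Agent.P164

variable {h : ℝ → ℝ}

/-- All tips up to time `t` are real. -/
def Flat (U : ℝ≥0 → ℝ) (t : ℝ≥0) : Prop :=
  ∀ q : ℚ≥0, (q : ℝ≥0) ≤ t → ∀ z, IsTip U q z → z.im = 0

lemma regular_flat : Regular Flat := by
  refine ⟨fun t => ⟨{w | ∀ q : ℚ≥0, ∀ hq : (q : ℝ≥0) ≤ t,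
    HasTip ⟨(q : ℝ≥0), hq⟩ w → (tipVal ⟨(q : ℝ≥0), hq⟩ w).im = 0}, ?_, fun U hU => ?_⟩,
    fun U s t hst hQ q hq => hQ q (hq.trans hst), fun U hU r hr t => ?_⟩
  · simp only [ofPred_forall]
    refine MeasurableSet.iInter fun q => MeasurableSet.iInter fun hq => ?_
    convert (measurableSet_hasTip (⟨(q : ℝ≥0), hq⟩ : Iic t)).compl.union
      (measurableSet_eq_fun (Complex.measurable_im.comp
        (measurable_tipVal (⟨(q : ℝ≥0), hq⟩ : Iic t))) (measurable_const (a := (0 : ℝ)))) using 1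
    ext w
    simp only [mem_ofPred_eq, mem_union, mem_compl_iff, Function.comp]
    tauto
  · refine forall_congr' fun q => ⟨fun H hq htip => ?_, fun H hq z hz => ?_⟩
    · obtain ⟨h1, h2⟩ := hasTip_iff (⟨(q : ℝ≥0), hq⟩ : Iic t) hU
      obtain ⟨z, hz⟩ := h1.1 htip
      rw [h2 z hz]
      exact H hq z hz
    · obtain ⟨h1, h2⟩ := hasTip_iff (⟨(q : ℝ≥0), hq⟩ : Iic t) hU
      rw [← h2 z hz]
      exact H hq (h1.2 ⟨z, hz⟩)
  · have hr' : (0 : ℝ≥0) < (r : ℝ≥0) := by exact_mod_cast hr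
    have ha : (√((r : ℝ≥0) : ℝ))⁻¹ ≠ 0 :=
      inv_ne_zero (Real.sqrt_pos.2 (by exact_mod_cast hr : (0 : ℝ) < ((r : ℝ≥0) : ℝ))).ne'
    constructor
    · intro H q hq z hz
      have hq' : ((q / r : ℚ≥0) : ℝ≥0) ≤ t := by
        push_cast; rw [div_le_iff₀ hr', mul_comm]; exact hq
      have := H (q / r) hq' (((√((r : ℝ≥0) : ℝ))⁻¹ : ℝ) * z)
        ((isTip_scale_iff hU hr _ z).2 (by push_cast; rwa [mul_div_cancel₀ _ hr'.ne']))
      rw [im_ofReal_mul] at this
      exact (mul_eq_zero.1 this).resolve_left ha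
    · intro H q hq z hz
      have haC : (((√((r : ℝ≥0) : ℝ))⁻¹ : ℝ) : ℂ) ≠ 0 := ofReal_ne_zero.2 ha
      rw [← mul_inv_cancel_left₀ haC z] at hz ⊢
      have := H (r * q) (by push_cast; gcongr) _
        (by push_cast; exact (isTip_scale_iff hU hr _ _).1 hz)
      rw [im_ofReal_mul]
      push_cast at this ⊢
      rw [this, mul_zero]

/-- Segments away from time zero are finite. -/
def FinPos (h : ℝ → ℝ) (U : ℝ≥0 → ℝ) (t : ℝ≥0) : Prop :=
  ∀ q : ℚ≥0, 0 < q → (q : ℝ≥0) ≤ t → gaugeMeasure h (seg U q t) < ∞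

lemma regular_finPos (hh : IsGauge h) : Regular (FinPos h) := by
  refine ⟨fun t => ⟨{w | ∀ q : ℚ≥0, 0 < q → (q : ℝ≥0) ≤ t → ∃ C : ℕ, CoverEvent h C (-1) q t w},
    ?_, fun U hU => ?_⟩,
    fun U s t hst hQ q h0 hq => (measure_mono (seg_mono le_rfl hst)).trans_lt (hQ q h0 (hq.trans hst)),
    fun U hU r hr t => ?_⟩
  · simp only [ofPred_forall, ofPred_exists]
    exact MeasurableSet.iInter fun q => MeasurableSet.iInter fun _ => MeasurableSet.iInter fun _ =>
      MeasurableSet.iUnion fun C => measurableSet_coverEvent h _ _ q t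
  · simp only [mem_ofPred_eq, coverEvent_iff hh (ENNReal.natCast_ne_top _) _ hU]
    refine forall₃_congr fun q _ _ => ?_
    have : closure (tips U q t) ∩ {z | (-1 : ℝ) ≤ z.im} = seg U q t :=
      inter_eq_left.2 fun z hz => show (-1 : ℝ) ≤ z.im by linarith [seg_im_nonneg hU hz]
    rw [this]
    exact ⟨exists_nat_of_ne_top, fun ⟨C, hC⟩ => hC.trans_lt (ENNReal.natCast_lt_top C)⟩
  · have hr' : (0 : ℝ≥0) < (r : ℝ≥0) := by exact_mod_cast hr
    have ha : (√((r : ℝ≥0) : ℝ))⁻¹ ≠ 0 :=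
      inv_ne_zero (Real.sqrt_pos.2 (by exact_mod_cast hr : (0 : ℝ) < ((r : ℝ≥0) : ℝ))).ne'
    constructor
    · intro H q h0 hq
      have hq' : ((q / r : ℚ≥0) : ℝ≥0) ≤ t := by
        push_cast; rw [div_le_iff₀ hr', mul_comm]; exact hq
      have hH := H (q / r) (div_pos h0 hr) hq'
      rw [seg_scale hU hr] at hH
      obtain ⟨N, -, h2⟩ := mul_image_bounds hh ha
        (seg U ((r : ℝ≥0) * ((q / r : ℚ≥0) : ℝ≥0)) ((r : ℝ≥0) * t))
      have he : (r : ℝ≥0) * ((q / r : ℚ≥0) : ℝ≥0) = q := by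
        push_cast; rw [mul_div_cancel₀ _ hr'.ne']
      rw [he] at h2 hH
      exact h2.trans_lt (ENNReal.mul_lt_top (ENNReal.natCast_lt_top N) hH)
    · intro H q h0 hq
      rw [seg_scale hU hr]
      obtain ⟨N, h1, -⟩ := mul_image_bounds hh ha (seg U ((r : ℝ≥0) * q) ((r : ℝ≥0) * t))
      have hH := H (r * q) (mul_pos hr h0) (by push_cast; gcongr)
      rw [show ((r * q : ℚ≥0) : ℝ≥0) = (r : ℝ≥0) * q by push_cast; rfl] at hH
      exact h1.trans_lt (ENNReal.mul_lt_top (ENNReal.natCast_lt_top N) hH)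

variable {Ω : Type*} [MeasurableSpace Ω] {P : Measure Ω} [IsProbabilityMeasure P] {κ : ℝ}

/-- Almost surely some segment away from time zero stays off the real line. -/
theorem ae_segment_in_H {B : ℝ≥0 → Ω → ℝ} (hB : IsBrownianReal B P) (hκ : 0 < κ) (hκ8 : κ < 8)
    {γ : Ω → ℝ≥0 → ℂ} (hγ : ∀ᵐ ω ∂P, IsTrace (fun t => √κ * B t ω) (γ ω)) :
    ∀ᵐ ω ∂P, ∃ s t : ℝ≥0, 0 < s ∧ s < t ∧ ∃ l : ℝ, 0 < l ∧
      γ ω '' Icc s t ⊆ {z | l ≤ z.im} := by
  obtain ⟨X, hX, hXB⟩ := exists_nice hB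
  have htr : ∀ᵐ ω ∂P, IsTrace (drive κ X ω) (γ ω) := by
    filter_upwards [hγ, hXB] with ω h1 h2
    have he : (fun t => √κ * B t ω) = drive κ X ω := funext fun u => by simp [drive, h2 u]
    exact he ▸ h1
  rcases dichotomy regular_flat hX κ with hflat | hnot
  · refine absurd ?_ (not_realTip hX hκ hκ8)
    filter_upwards [htr, hflat X hX] with ω htr hω
    have h1 : IsTip (drive κ X ω) 1 (γ ω 1) := htr.2 1
    have him : (γ ω 1).im = 0 := hω 1 1 (by simp) _ (by simpa using h1)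
    refine ⟨(γ ω 1).re, ?_⟩
    rwa [show ((γ ω 1).re : ℂ) = γ ω 1 from Complex.ext (by simp) (by simp [him])]
  · filter_upwards [htr, hnot X hX] with ω htr hω
    have := hω 1 one_pos
    simp only [Flat, not_forall] at this
    obtain ⟨q, -, z, hz, hzi⟩ := this
    have hzγ : z = γ ω q := tendsto_nhds_unique hz (htr.2 q)
    have hU : Continuous (drive κ X ω) := continuous_drive κ hX ω
    have hpos : 0 < (γ ω q).im := by
      refine lt_of_le_of_ne ?_ fun e => hzi (hzγ ▸ e.symm)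
      exact tips_im_nonneg (s := q) (t := q) hU ⟨q, le_rfl, le_rfl, htr.2 q⟩
    have hq0 : (0 : ℝ≥0) < (q : ℝ≥0) := by
      refine lt_of_le_of_ne zero_le fun e => ?_
      have h0 : IsTip (drive κ X ω) 0 (drive κ X ω 0 : ℂ) := by
        have : Tendsto (fun y : ℝ => (drive κ X ω 0 : ℂ) + (y : ℂ) * I) (𝓝[>] 0)
            (𝓝 (drive κ X ω 0 : ℂ)) := by
          simpa [Pi.add_def] using (((continuous_const.add
            (Complex.continuous_ofReal.mul continuous_const)) :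
              Continuous fun y : ℝ => (drive κ X ω 0 : ℂ) + (y : ℂ) * I).tendsto 0).mono_left
            (nhdsWithin_le_nhds (s := Ioi (0 : ℝ)))
        exact this.congr' (eventually_mem_nhdsWithin.mono fun y hy =>
          (height_zero (U := drive κ X ω) (show (0 : ℝ) < y from hy)).symm)
      rw [← e, tendsto_nhds_unique (htr.2 0) h0, ofReal_im] at hpos
      exact lt_irrefl 0 hpos
    obtain ⟨t, hqt, hsub⟩ := (mem_nhdsGE_iff_exists_Icc_subset (a := (q : ℝ≥0))).1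
      (nhdsWithin_le_nhds ((((Complex.continuous_im.comp htr.1).tendsto (q : ℝ≥0))).eventually
        (eventually_ge_nhds (half_lt_self hpos))))
    exact ⟨q, t, hq0, hqt, (γ ω q).im / 2, half_pos hpos, by
      rintro _ ⟨u, hu, rfl⟩
      exact hsub hu⟩

/-- A gauge works almost surely on all segments, or fails almost surely on some segment. -/
theorem exact_dichotomy {B : ℝ≥0 → Ω → ℝ} (hB : IsBrownianReal B P) (hκ : 0 < κ) (hκ8 : κ < 8)
    {γ : Ω → ℝ≥0 → ℂ} (hγ : ∀ᵐ ω ∂P, IsTrace (fun t => √κ * B t ω) (γ ω)) (hh : IsGauge h) :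
    (∀ᵐ ω ∂P, ∀ s t : ℝ≥0, 0 < s → s < t →
        0 < gaugeMeasure h (γ ω '' Icc s t) ∧ gaugeMeasure h (γ ω '' Icc s t) < ∞) ∨
      (∀ᵐ ω ∂P, ∃ s t : ℝ≥0, 0 < s ∧ s < t ∧
        (gaugeMeasure h (γ ω '' Icc s t) = 0 ∨ gaugeMeasure h (γ ω '' Icc s t) = ∞)) := by
  obtain ⟨X, hX, hXB⟩ := exists_nice hB
  have htr : ∀ᵐ ω ∂P, ∀ s t : ℝ≥0, s < t → seg (drive κ X ω) s t = γ ω '' Icc s t := by
    filter_upwards [hγ, hXB] with ω h1 h2 s t hst
    have he : (fun t => √κ * B t ω) = drive κ X ω := funext fun u => by simp [drive, h2 u]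
    exact (he ▸ h1).seg_eq hst
  rcases (trichotomy hB κ hγ hh).1 with h1 | h1 | h1
  · right
    filter_upwards [h1, ae_segment_in_H hB hκ hκ8 hγ] with ω h1 hω
    obtain ⟨s, t, hs, hst, l, hl, hsub⟩ := hω
    refine ⟨s, t, hs, hst, Or.inl (measure_mono_null
      (show γ ω '' Icc s t ⊆ γ ω '' Icc s t ∩ {z | 0 < z.im} from fun z hz => ⟨hz, ?_⟩) (h1 s t hst))⟩
    have hzl : l ≤ z.im := hsub hz
    exact hl.trans_le hzl
  · right
    filter_upwards [h1] with ω h1
    obtain ⟨l, -, hl⟩ := h1 1 2 (by norm_num)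
    exact ⟨1, 2, one_pos, by norm_num,
      Or.inr (top_unique (hl.ge.trans (measure_mono inter_subset_left)))⟩
  · rcases dichotomy (regular_finPos hh) hX κ with hfin | hinf
    · left
      filter_upwards [h1, htr, hfin X hX] with ω h1 he hω s t hs hst
      refine ⟨(h1 s t hst).1.trans_le (measure_mono inter_subset_left), ?_⟩
      obtain ⟨q, hq0, hqs⟩ := exists_nnrat_btwn hs
      rw [← he s t hst]
      exact (measure_mono (seg_mono hqs.le le_rfl)).trans_lt
        (hω t q (by exact_mod_cast hq0) (hqs.le.trans hst.le))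
    · right
      filter_upwards [htr, hinf X hX] with ω he hω
      have := hω 1 one_pos
      simp only [FinPos, not_forall, not_lt, top_le_iff] at this
      obtain ⟨q, hq0, hq1, htop⟩ := this
      have hq2 : (q : ℝ≥0) < 2 := lt_of_le_of_lt hq1 (by norm_num)
      refine ⟨q, 2, by exact_mod_cast hq0, hq2, Or.inr (top_unique ?_)⟩
      rw [← htop, ← he q 2 hq2]
      exact measure_mono (seg_mono le_rfl (by norm_num))

end Vale.Agent.P164
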