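import Mathlib

/-!
P164: the reverse Loewner flow of a continuous driving function.

`flow V t w` is the value at `w` of the inverse Loewner map at time `t`: the value at time `t` of the
solution of `h' u = -2 / (h u - V (t - u))`, `h 0 = w`.
-/

open Set Filter Metric Complex
open scoped NNReal Topology

namespace Vale.Agent.P164

/-- `z` is reached from `w` by the reverse Loewner equation of `V` in time `t`, inside the upper
half-plane. -/
def IsFlow (V : ℝ → ℝ) (t : ℝ) (w z : ℂ) : Prop :=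
  ∃ h : ℝ → ℂ, h 0 = w ∧ h t = z ∧ ∀ u ∈ Icc (0 : ℝ) t, 0 < (h u).im ∧
    HasDerivWithinAt h (-2 / (h u - (V (t - u) : ℂ))) (Icc 0 t) u

open scoped Classical in
/-- The inverse Loewner map at time `t`. -/
noncomputable def flow (V : ℝ → ℝ) (t : ℝ) (w : ℂ) : ℂ :=
  if h : ∃ z, IsFlow V t w z then Classical.choose h else 0

/-- Raise the imaginary part to at least `y`. -/
noncomputable def clamp (y : ℝ) (z : ℂ) : ℂ := (z.re : ℂ) + (max z.im y : ℝ) * I

/-- The clamped vector field. -/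
noncomputable def field (y v : ℝ) (z : ℂ) : ℂ := -2 / (clamp y z - (v : ℂ))

variable {y v v' t : ℝ} {z z' w w' : ℂ} {V V' : ℝ → ℝ}

lemma clamp_of_le (h : y ≤ z.im) : clamp y z = z := by
  rw [clamp, max_eq_left h, re_add_im]

lemma le_norm_clamp_sub (y v : ℝ) (z : ℂ) : y ≤ ‖clamp y z - (v : ℂ)‖ := by
  refine le_trans ?_ (Complex.abs_im_le_norm _)
  refine le_trans ?_ (le_abs_self _)
  simp [clamp]

lemma clamp_sub_ne (hy : 0 < y) : clamp y z - (v : ℂ) ≠ 0 :=
  norm_pos_iff.1 (hy.trans_le (le_norm_clamp_sub y v z))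

lemma norm_field_le (hy : 0 < y) : ‖field y v z‖ ≤ 2 / y := by
  rw [field, norm_div, norm_neg, Complex.norm_ofNat]
  exact div_le_div_of_nonneg_left (by norm_num) hy (le_norm_clamp_sub y v z)

lemma norm_clamp_sub_le (y : ℝ) (z z' : ℂ) : ‖clamp y z - clamp y z'‖ ≤ ‖z - z'‖ := by
  rw [Complex.norm_def, Complex.norm_def]
  refine Real.sqrt_le_sqrt ?_
  simp only [normSq_apply, clamp, sub_re, sub_im, add_re, add_im, ofReal_re, ofReal_im, mul_re,
    mul_im, I_re, I_im, mul_zero, mul_one, add_zero, zero_add, sub_zero]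
  have h : |max z.im y - max z'.im y| ≤ |z.im - z'.im| := abs_max_sub_max_le_abs _ _ _
  nlinarith [sq_abs (max z.im y - max z'.im y), sq_abs (z.im - z'.im),
    mul_le_mul h h (abs_nonneg _) (abs_nonneg _)]

lemma norm_field_sub_le (hy : 0 < y) :
    ‖field y v z - field y v' z'‖ ≤ 2 / y ^ 2 * (‖z - z'‖ + |v - v'|) := by
  have e : field y v z - field y v' z' =
      2 * ((clamp y z - clamp y z') - ((v - v' : ℝ) : ℂ)) /
        ((clamp y z - (v : ℂ)) * (clamp y z' - (v' : ℂ))) := by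
    rw [field, field, div_sub_div _ _ (clamp_sub_ne hy) (clamp_sub_ne hy)]
    push_cast; ring
  have n : ‖(clamp y z - clamp y z') - ((v - v' : ℝ) : ℂ)‖ ≤ ‖z - z'‖ + |v - v'| := by
    refine (norm_sub_le _ _).trans (add_le_add (norm_clamp_sub_le y z z') ?_)
    rw [Complex.norm_real, Real.norm_eq_abs]
  rw [e, norm_div, norm_mul, norm_mul, Complex.norm_ofNat, div_mul_eq_mul_div]
  refine div_le_div₀ (by positivity) (by linarith) (by positivity) ?_
  rw [sq]
  exact mul_le_mul (le_norm_clamp_sub _ _ _) (le_norm_clamp_sub _ _ _) hy.le (norm_nonneg _)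

lemma lipschitz_field (hy : 0 < y) (v : ℝ) :
    LipschitzWith ⟨2 / y ^ 2, by positivity⟩ (field y v) := by
  refine LipschitzWith.of_dist_le_mul fun z z' => ?_
  have := norm_field_sub_le (v := v) (v' := v) (z := z) (z' := z') hy
  rw [dist_eq_norm, dist_eq_norm]
  simp only [sub_self, abs_zero, add_zero] at this
  exact this

lemma neg_two_div_im (ζ : ℂ) : (-2 / ζ).im = 2 * ζ.im / normSq ζ := by
  simp [Complex.div_im]
  ring

lemma field_im_nonneg (hy : 0 < y) : 0 ≤ (field y v z).im := by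
  rw [field, neg_two_div_im, sub_im, ofReal_im, sub_zero]
  refine div_nonneg ?_ (normSq_nonneg _)
  simp [clamp, (le_max_right z.im y).trans' hy.le]

/-- The imaginary part grows along a solution. -/
lemma im_monotone {h : ℝ → ℂ}
    (hd : ∀ u ∈ Icc (0 : ℝ) t, 0 < (h u).im ∧
      HasDerivWithinAt h (-2 / (h u - (V (t - u) : ℂ))) (Icc 0 t) u) :
    ∀ u ∈ Icc (0 : ℝ) t, (h 0).im ≤ (h u).im := by
  intro u hu
  have hm : MonotoneOn (fun r => (h r).im) (Icc 0 t) := by
    refine monotoneOn_of_hasDerivWithinAt_nonneg (convex_Icc 0 t)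
      (f' := fun r => (-2 / (h r - (V (t - r) : ℂ))).im) ?_ ?_ ?_
    · exact fun r hr => (Complex.continuous_im.continuousAt.comp_continuousWithinAt
        (hd r hr).2.continuousWithinAt)
    · intro r hr
      exact (Complex.imCLM.hasFDerivAt.comp_hasDerivWithinAt r
        (hd r (interior_subset hr)).2).mono interior_subset
    · intro r hr
      have hpos := (hd r (interior_subset hr)).1
      rw [neg_two_div_im, sub_im, ofReal_im, sub_zero]
      exact div_nonneg (by linarith) (normSq_nonneg _)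
  exact hm ⟨le_rfl, hu.1.trans hu.2⟩ hu hu.1

/-- A solution in the half-plane above `y` solves the clamped equation. -/
lemma hasDeriv_field {h : ℝ → ℂ}
    (hd : ∀ u ∈ Icc (0 : ℝ) t, 0 < (h u).im ∧
      HasDerivWithinAt h (-2 / (h u - (V (t - u) : ℂ))) (Icc 0 t) u) (hy : y ≤ (h 0).im) :
    ∀ u ∈ Ico (0 : ℝ) t, HasDerivWithinAt h (field y (V (t - u)) (h u)) (Ici u) u := by
  intro u hu
  rw [field, clamp_of_le (hy.trans (im_monotone hd u (Ico_subset_Icc_self hu)))]
  exact (hd u (Ico_subset_Icc_self hu)).2.mono_of_mem_nhdsWithin (Icc_mem_nhdsGE_of_mem hu)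

lemma exists_isFlow (hV : Continuous V) (ht : 0 ≤ t) (hw : 0 < w.im) : ∃ z, IsFlow V t w z := by
  set y := w.im
  have hpl : IsPicardLindelof (fun u z => field y (V (t - u)) z)
      (⟨0, le_rfl, ht⟩ : Icc (0 : ℝ) t) w ⟨2 / y * t, by positivity⟩ 0 ⟨2 / y, by positivity⟩
      ⟨2 / y ^ 2, by positivity⟩ := by
    refine ⟨fun u _ => (lipschitz_field hw _).lipschitzOnWith, fun z _ => ?_,
      fun u _ z _ => norm_field_le hw, ?_⟩
    · refine Continuous.continuousOn (Continuous.div continuous_const ?_ fun u => clamp_sub_ne hw)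
      fun_prop
    · show 2 / y * max (t - 0) (0 - 0) ≤ 2 / y * t - 0
      simp [max_eq_left ht]
  obtain ⟨h, h0, hh⟩ := IsPicardLindelof.exists_eq_forall_mem_Icc_hasDerivWithinAt₀ hpl
  have him : ∀ u ∈ Icc (0 : ℝ) t, y ≤ (h u).im := by
    intro u hu
    have hm : MonotoneOn (fun r => (h r).im) (Icc 0 t) := by
      refine monotoneOn_of_hasDerivWithinAt_nonneg (convex_Icc 0 t)
        (f' := fun r => (field y (V (t - r)) (h r)).im) ?_ ?_ fun r _ => field_im_nonneg hw
      · exact fun r hr => (Complex.continuous_im.continuousAt.comp_continuousWithinAt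
          (hh r hr).continuousWithinAt)
      · exact fun r hr => (Complex.imCLM.hasFDerivAt.comp_hasDerivWithinAt r
          (hh r (interior_subset hr))).mono interior_subset
    have := hm ⟨le_rfl, ht⟩ hu hu.1
    simpa [y, h0] using this
  refine ⟨h t, h, h0, rfl, fun u hu => ⟨hw.trans_le (him u hu), ?_⟩⟩
  have := hh u hu
  rwa [field, clamp_of_le (him u hu)] at this

lemma isFlow_flow (hV : Continuous V) (ht : 0 ≤ t) (hw : 0 < w.im) :
    IsFlow V t w (flow V t w) := by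
  have h := exists_isFlow hV ht hw
  rw [flow, dif_pos h]
  exact Classical.choose_spec h

/-- Two solutions are close if their initial values and driving functions are. -/
lemma dist_le_of_isFlow (hy : 0 < y) (hw : y ≤ w.im) (hw' : y ≤ w'.im) (ht : 0 ≤ t)
    (h : IsFlow V t w z) (h' : IsFlow V' t w' z') {M : ℝ}
    (hM : ∀ u ∈ Icc (0 : ℝ) t, |V u - V' u| ≤ M) :
    dist z z' ≤ gronwallBound (dist w w') (2 / y ^ 2) (2 / y ^ 2 * M) t := by
  obtain ⟨f, f0, rfl, hf⟩ := h
  obtain ⟨g, g0, rfl, hg⟩ := h'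
  have := dist_le_of_approx_trajectories_ODE (v := fun u => field y (V (t - u)))
    (fun u => lipschitz_field hy _) (f' := fun u => field y (V (t - u)) (f u))
    (g' := fun u => field y (V' (t - u)) (g u)) (εf := 0) (εg := 2 / y ^ 2 * M)
    (fun u hu => (hf u hu).2.continuousWithinAt) (hasDeriv_field hf (f0 ▸ hw))
    (fun u _ => (dist_self _).le) (fun u hu => (hg u hu).2.continuousWithinAt)
    (hasDeriv_field hg (g0 ▸ hw')) (fun u hu => ?_) (le_refl (dist (f 0) (g 0))) t ⟨ht, le_rfl⟩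
  · rw [f0, g0, zero_add, sub_zero] at this
    exact this
  · rw [dist_eq_norm]
    refine (norm_field_sub_le hy).trans ?_
    rw [sub_self, norm_zero, zero_add]
    refine mul_le_mul_of_nonneg_left ?_ (by positivity)
    rw [abs_sub_comm]
    exact hM _ ⟨by linarith [hu.2], by linarith [hu.1]⟩

lemma IsFlow.unique (hw : 0 < w.im) (ht : 0 ≤ t) (h : IsFlow V t w z)
    (h' : IsFlow V t w z') : z = z' := by
  have := dist_le_of_isFlow hw le_rfl le_rfl ht h h' (M := 0) fun u _ => by simp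
  simpa [gronwallBound_ε0_δ0] using this

lemma flow_eq (hw : 0 < w.im) (ht : 0 ≤ t) (h : IsFlow V t w z) : flow V t w = z := by
  have he : ∃ z, IsFlow V t w z := ⟨z, h⟩
  rw [flow, dif_pos he]
  exact (Classical.choose_spec he).unique hw ht h

lemma flow_im_ge (hV : Continuous V) (ht : 0 ≤ t) (hw : 0 < w.im) : w.im ≤ (flow V t w).im := by
  obtain ⟨h, h0, h1, hh⟩ := isFlow_flow hV ht hw
  have := im_monotone hh t ⟨ht, le_rfl⟩
  rwa [h0, h1] at this

lemma dist_flow_le (hV : Continuous V) (hy : 0 < y) (ht : 0 ≤ t) (hw : y ≤ w.im)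
    (hw' : y ≤ w'.im) :
    dist (flow V t w) (flow V t w') ≤ Real.exp (2 / y ^ 2 * t) * dist w w' := by
  have := dist_le_of_isFlow hy hw hw' ht (isFlow_flow hV ht (hy.trans_le hw))
    (isFlow_flow hV ht (hy.trans_le hw')) (M := 0) fun u _ => by simp
  rwa [mul_zero, gronwallBound_ε0, mul_comm] at this

/-- The inverse Loewner map does not contract much. -/
lemma dist_le_flow (hV : Continuous V) (hy : 0 < y) (ht : 0 ≤ t) (hw : y ≤ w.im)
    (hw' : y ≤ w'.im) :
    dist w w' ≤ Real.exp (2 / y ^ 2 * t) * dist (flow V t w) (flow V t w') := by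
  obtain ⟨f, f0, f1, hf⟩ := isFlow_flow hV ht (hy.trans_le hw)
  obtain ⟨g, g0, g1, hg⟩ := isFlow_flow hV ht (hy.trans_le hw')
  have aux : ∀ h : ℝ → ℂ, y ≤ (h 0).im → (∀ u ∈ Icc (0 : ℝ) t, 0 < (h u).im ∧
      HasDerivWithinAt h (-2 / (h u - (V (t - u) : ℂ))) (Icc 0 t) u) →
      ContinuousOn (fun r => h (t - r)) (Icc 0 t) ∧
      ∀ r ∈ Ico (0 : ℝ) t, HasDerivWithinAt (fun r => h (t - r))
        (-field y (V r) (h (t - r))) (Ici r) r := by
    intro h hy0 hh
    have hmaps : MapsTo (fun r => t - r) (Icc 0 t) (Icc 0 t) := fun r hr =>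
      ⟨by linarith [hr.2], by linarith [hr.1]⟩
    have hd : ∀ r ∈ Icc (0 : ℝ) t, HasDerivWithinAt (fun r => h (t - r))
        (-field y (V r) (h (t - r))) (Icc 0 t) r := by
      intro r hr
      have := (hh _ (hmaps hr)).2.scomp r ((hasDerivWithinAt_id r (Icc 0 t)).const_sub t) hmaps
      rw [field, clamp_of_le (hy0.trans (im_monotone hh _ (hmaps hr)))]
      simpa [Function.comp_def] using this
    exact ⟨fun r hr => (hd r hr).continuousWithinAt, fun r hr =>
      (hd r (Ico_subset_Icc_self hr)).mono_of_mem_nhdsWithin (Icc_mem_nhdsGE_of_mem hr)⟩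
  have := dist_le_of_trajectories_ODE (v := fun r z => -field y (V r) z)
    (fun r => (lipschitz_field hy (V r)).neg) (aux f (f0 ▸ hw) hf).1 (aux f (f0 ▸ hw) hf).2
    (aux g (g0 ▸ hw') hg).1 (aux g (g0 ▸ hw') hg).2 le_rfl t ⟨ht, le_rfl⟩
  simp only [sub_zero, sub_self, f0, g0, f1, g1] at this
  rw [mul_comm]
  exact this

/-- Translation. -/
lemma flow_translate (hV : Continuous V) (ht : 0 ≤ t) (hw : 0 < w.im) (c : ℝ) :
    flow (fun u => V u - c) t (w - (c : ℂ)) = flow V t w - (c : ℂ) := by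
  obtain ⟨h, h0, h1, hh⟩ := isFlow_flow hV ht hw
  refine flow_eq (by simpa using hw) ht
    ⟨fun u => h u - (c : ℂ), by simp [h0], by simp [h1], fun u hu => ⟨by simpa using (hh u hu).1, ?_⟩⟩
  refine ((hh u hu).2.sub_const _).congr_deriv ?_
  push_cast; ring_nf

/-- Scaling. -/
lemma flow_scale (hV : Continuous V) (ht : 0 ≤ t) (hw : 0 < w.im) {c : ℝ} (hc : 0 < c) :
    flow (fun u => c * V (u / c ^ 2)) (c ^ 2 * t) ((c : ℂ) * w) = (c : ℂ) * flow V t w := by
  obtain ⟨h, h0, h1, hh⟩ := isFlow_flow hV ht hw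
  have hc2 : 0 < c ^ 2 := by positivity
  refine flow_eq (by simpa [hc] using hw) (by positivity)
    ⟨fun u => (c : ℂ) * h (u / c ^ 2), by simp [h0],
      by simp [h1, mul_div_cancel_left₀ _ hc2.ne'], fun u hu => ?_⟩
  have hmem : u / c ^ 2 ∈ Icc (0 : ℝ) t :=
    ⟨div_nonneg hu.1 hc2.le, (div_le_iff₀ hc2).2 (by linarith [hu.2])⟩
  refine ⟨by simpa [hc] using (hh _ hmem).1, ?_⟩
  have hmaps : MapsTo (fun r => r / c ^ 2) (Icc 0 (c ^ 2 * t)) (Icc 0 t) := fun r hr =>
    ⟨div_nonneg hr.1 hc2.le, (div_le_iff₀ hc2).2 (by linarith [hr.2])⟩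
  have := ((hh _ hmem).2.scomp u ((hasDerivWithinAt_id u (Icc 0 (c ^ 2 * t))).div_const (c ^ 2))
    hmaps).const_mul (c : ℂ)
  refine this.congr_deriv ?_
  dsimp only
  rw [show (c ^ 2 * t - u) / c ^ 2 = t - u / c ^ 2 by field_simp]
  have hne : h (u / c ^ 2) - (V (t - u / c ^ 2) : ℂ) ≠ 0 := fun e => by
    have := congrArg Complex.im e
    simp at this
    exact (hh _ hmem).1.ne' this
  have hcC : (c : ℂ) ≠ 0 := ofReal_ne_zero.2 hc.ne'
  rw [Complex.real_smul]
  push_cast
  rw [← mul_sub]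
  field_simp

/-- The semigroup property. -/
lemma flow_add (hV : Continuous V) {s u : ℝ} (hs : 0 ≤ s) (hu : 0 ≤ u) (hw : 0 < w.im) :
    flow V (u + s) w = flow V s (flow (fun r => V (s + r)) u w) := by
  have hV' : Continuous fun r => V (s + r) := by fun_prop
  obtain ⟨f, f0, f1, hf⟩ := isFlow_flow hV' hu hw
  have him : 0 < (flow (fun r => V (s + r)) u w).im := f1 ▸ (hf u ⟨hu, le_rfl⟩).1
  obtain ⟨g, g0, g1, hg⟩ := isFlow_flow hV hs him
  refine flow_eq hw (by positivity)
    ⟨fun r => if r ≤ u then f r else g (r - u), by simp [hu, f0], ?_, fun r hr => ?_⟩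
  · rcases eq_or_lt_of_le hs with rfl | h
    · simpa [f1] using g0.symm.trans g1
    · simp [not_le.2 h, g1]
  have e1 : ∀ r ∈ Icc (0 : ℝ) u, (if r ≤ u then f r else g (r - u)) = f r := fun r hr => if_pos hr.2
  have e2 : ∀ r ∈ Icc u (u + s), (if r ≤ u then f r else g (r - u)) = g (r - u) := fun r hr => by
    split_ifs with h
    · obtain rfl := le_antisymm h hr.1
      rw [sub_self, g0, f1]
    · rfl
  have d1 : ∀ r ∈ Icc (0 : ℝ) u, HasDerivWithinAt (fun r => if r ≤ u then f r else g (r - u))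
      (-2 / (f r - (V (u + s - r) : ℂ))) (Icc 0 u) r := fun r hr => by
    rw [show u + s - r = s + (u - r) by ring]
    exact ((hf r hr).2).congr e1 (e1 r hr)
  have d2 : ∀ r ∈ Icc u (u + s), HasDerivWithinAt (fun r => if r ≤ u then f r else g (r - u))
      (-2 / (g (r - u) - (V (u + s - r) : ℂ))) (Icc u (u + s)) r := fun r hr => by
    have hmaps : MapsTo (fun r => r - u) (Icc u (u + s)) (Icc 0 s) := fun x hx =>
      ⟨by linarith [hx.1], by linarith [hx.2]⟩
    have := (hg _ (hmaps hr)).2.scomp r ((hasDerivWithinAt_id r (Icc u (u + s))).sub_const u) hmaps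
    rw [show u + s - r = s - (r - u) by ring]
    exact (this.congr_deriv (by simp)).congr e2 (e2 r hr)
  dsimp only
  rcases lt_trichotomy r u with hlt | rfl | hgt
  · rw [if_pos hlt.le]
    refine ⟨(hf r ⟨hr.1, hlt.le⟩).1, (d1 r ⟨hr.1, hlt.le⟩).mono_of_mem_nhdsWithin ?_⟩
    refine mem_nhdsWithin.2 ⟨Iio u, isOpen_Iio, hlt, fun x hx => ⟨hx.2.1, hx.1.le⟩⟩
  · rw [if_pos le_rfl]
    refine ⟨(hf r ⟨hr.1, le_rfl⟩).1, ?_⟩
    rw [← Icc_union_Icc_eq_Icc hr.1 hr.2]
    refine (d1 r ⟨hr.1, le_rfl⟩).union ((d2 r ⟨le_rfl, hr.2⟩).congr_deriv ?_)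
    rw [sub_self, g0, f1]
  · rw [if_neg (not_le.2 hgt)]
    refine ⟨(hg _ ⟨by linarith, by linarith [hr.2]⟩).1,
      (d2 r ⟨hgt.le, hr.2⟩).mono_of_mem_nhdsWithin ?_⟩
    refine mem_nhdsWithin.2 ⟨Ioi u, isOpen_Ioi, hgt, fun x hx => ⟨hx.1.le, hx.2.2⟩⟩

end Vale.Agent.P164
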