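import Mathlib

/-!
P164: gauge measures in the plane. A Lipschitz image costs at most a constant factor for every
monotone gauge, and the measure of a compact set is read from countably many finite covers.
-/

open Set Filter Metric MeasureTheory Measure TopologicalSpace
open scoped NNReal ENNReal Topology

namespace Vale.Agent.P164

/-- A gauge: continuous, nondecreasing, zero exactly at zero. -/
structure IsGauge (h : ℝ → ℝ) : Prop where
  cont : ContinuousOn h (Ici 0)
  mono : MonotoneOn h (Ici 0)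
  zero : h 0 = 0
  pos : ∀ r, 0 < r → 0 < h r

/-- The gauge on extended diameters. -/
noncomputable def gfun (h : ℝ → ℝ) (r : ℝ≥0∞) : ℝ≥0∞ := ENNReal.ofReal (h r.toReal)

/-- The Hausdorff measure of a gauge. -/
noncomputable def gaugeMeasure (h : ℝ → ℝ) : Measure ℂ := mkMetric (gfun h)

variable {h : ℝ → ℝ}

lemma gfun_zero (hh : IsGauge h) : gfun h 0 = 0 := by simp [gfun, hh.zero]

lemma gfun_mono (hh : IsGauge h) {r s : ℝ≥0∞} (hs : s ≠ ∞) (hrs : r ≤ s) :
    gfun h r ≤ gfun h s :=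
  ENNReal.ofReal_le_ofReal (hh.mono ENNReal.toReal_nonneg ENNReal.toReal_nonneg
    (ENNReal.toReal_mono hs hrs))

/-- A set of diameter `L * r` splits into `k ^ 2` sets of diameter `r` as soon as `4 L ≤ k`. -/
lemma split_set {k : ℕ} {L : ℝ≥0} (hk : 4 * L ≤ k) (hk0 : 0 < k) (A : Set ℂ) (r : ℝ≥0∞)
    (hr : r ≠ ∞) (hA : ediam A ≤ L * r) :
    ∃ P : Fin k × Fin k → Set ℂ, A ⊆ ⋃ p, P p ∧ ∀ p, ediam (P p) ≤ r := by
  rcases A.eq_empty_or_nonempty with rfl | ⟨z₀, hz₀⟩
  · exact ⟨fun _ => ∅, empty_subset _, fun _ => by simp⟩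
  set R : ℝ := L * r.toReal with hR
  have hR0 : 0 ≤ R := mul_nonneg L.2 ENNReal.toReal_nonneg
  have hkR : (0 : ℝ) < k := by exact_mod_cast hk0
  have hLr : (L : ℝ≥0∞) * r ≠ ∞ := ENNReal.mul_ne_top ENNReal.coe_ne_top hr
  have hdist : ∀ z ∈ A, ‖z - z₀‖ ≤ R := fun z hz => by
    have h := (edist_le_ediam_of_mem hz hz₀).trans hA
    rw [edist_dist, dist_eq_norm] at h
    have h' := ENNReal.toReal_mono hLr h
    rwa [ENNReal.toReal_ofReal (norm_nonneg _), ENNReal.toReal_mul, ENNReal.coe_toReal] at h'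
  -- boxes of side `2 R / k`
  let box : Fin k × Fin k → Set ℂ := fun p =>
    {z | (z.re - z₀.re + R ∈ Icc (2 * R * p.1 / k) (2 * R * (p.1 + 1) / k)) ∧
      z.im - z₀.im + R ∈ Icc (2 * R * p.2 / k) (2 * R * (p.2 + 1) / k)}
  refine ⟨box, fun z hz => ?_, fun p => ?_⟩
  · have hpick : ∀ x : ℝ, |x| ≤ R → ∃ i : Fin k,
        x + R ∈ Icc (2 * R * i / k) (2 * R * (i + 1) / k) := by
      intro x hx
      have hx' := abs_le.1 hx
      rcases hR0.eq_or_lt with h0 | hpos
      · exact ⟨⟨0, hk0⟩, by simp [← h0]; linarith⟩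
      set q := (x + R) * k / (2 * R) with hq
      have hq0 : 0 ≤ q := div_nonneg (mul_nonneg (by linarith) hkR.le) (by linarith)
      have hqk : q ≤ k := (div_le_iff₀ (by linarith)).2 (by nlinarith)
      have hxq : x + R = 2 * R * q / k := by rw [hq]; field_simp
      rcases lt_or_ge ⌊q⌋₊ k with hlt | hge
      · refine ⟨⟨⌊q⌋₊, hlt⟩, ?_, ?_⟩ <;> rw [hxq] <;> gcongr
        · exact Nat.floor_le hq0
        · exact (Nat.lt_floor_add_one q).le
      · have hqe : (k : ℝ) ≤ q := le_trans (by exact_mod_cast hge) (Nat.floor_le hq0)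
        have hsub : (((⟨k - 1, by omega⟩ : Fin k) : ℕ) : ℝ) = k - 1 := by
          simp [Nat.cast_sub hk0]
        refine ⟨⟨k - 1, by omega⟩, ?_, ?_⟩ <;> rw [hxq, hsub] <;> gcongr <;> linarith
    obtain ⟨i, hi⟩ := hpick _ ((Complex.abs_re_le_norm (z - z₀)).trans (hdist z hz))
    obtain ⟨j, hj⟩ := hpick _ ((Complex.abs_im_le_norm (z - z₀)).trans (hdist z hz))
    refine mem_iUnion.2 ⟨(i, j), ?_, ?_⟩
    · simpa using hi
    · simpa using hj
  · refine ediam_le fun a ha b hb => ?_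
    rw [edist_dist, ← ENNReal.ofReal_toReal hr]
    refine ENNReal.ofReal_le_ofReal ?_
    rw [dist_eq_norm]
    refine (Complex.norm_le_abs_re_add_abs_im _).trans ?_
    obtain ⟨⟨a1, a2⟩, a3, a4⟩ := ha
    obtain ⟨⟨b1, b2⟩, b3, b4⟩ := hb
    have hstep : 2 * (2 * R / k) ≤ r.toReal := by
      rw [hR, ← mul_div_assoc, div_le_iff₀ hkR]
      have : (4 : ℝ) * L ≤ k := by exact_mod_cast hk
      nlinarith [ENNReal.toReal_nonneg (a := r)]
    have e : ∀ i : ℕ, 2 * R * (i + 1) / (k : ℝ) = 2 * R * i / k + 2 * R / k := fun i => by ring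
    rw [e] at a2 a4 b2 b4
    have hre : |(a - b).re| ≤ 2 * R / k := by
      rw [Complex.sub_re, abs_le]; constructor <;> linarith
    have him : |(a - b).im| ≤ 2 * R / k := by
      rw [Complex.sub_im, abs_le]; constructor <;> linarith
    linarith

/-- A cover at scale `r` almost as cheap as the measure. -/
lemma exists_cover (hh : IsGauge h) (E : Set ℂ) (hfin : gaugeMeasure h E ≠ ∞) {r ε : ℝ≥0∞}
    (hr : 0 < r) (hε : 0 < ε) :
    ∃ t : ℕ → Set ℂ, E ⊆ ⋃ i, t i ∧ (∀ i, ediam (t i) ≤ r) ∧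
      ∑' i, gfun h (ediam (t i)) ≤ gaugeMeasure h E + ε := by
  have hlt : gaugeMeasure h E < gaugeMeasure h E + ε := ENNReal.lt_add_right hfin hε.ne'
  have hle := mkMetric_apply (gfun h) E
  have : (⨅ (t : ℕ → Set ℂ) (_ : E ⊆ iUnion t) (_ : ∀ n, ediam (t n) ≤ r),
      ∑' n, ⨆ _ : (t n).Nonempty, gfun h (ediam (t n))) < gaugeMeasure h E + ε := by
    refine lt_of_le_of_lt ?_ hlt
    rw [gaugeMeasure, hle]
    exact le_iSup₂_of_le r hr le_rfl
  simp only [iInf_lt_iff] at this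
  obtain ⟨t, ht, htr, hsum⟩ := this
  refine ⟨t, ht, htr, le_trans (ENNReal.tsum_le_tsum fun i => ?_) hsum.le⟩
  rcases (t i).eq_empty_or_nonempty with h0 | h0
  · simp [h0, gfun_zero hh]
  · exact le_iSup (fun _ : (t i).Nonempty => gfun h (ediam (t i))) h0

/-- A Lipschitz image costs at most a constant factor, for every gauge. -/
theorem gaugeMeasure_image_le (hh : IsGauge h) {f : ℂ → ℂ} {E : Set ℂ} {L : ℝ≥0}
    (hf : LipschitzOnWith L f E) :
    gaugeMeasure h (f '' E) ≤ ((⌈4 * L⌉₊ + 1) ^ 2 : ℕ) * gaugeMeasure h E := by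
  set k := ⌈4 * L⌉₊ + 1 with hkdef
  have hk : 4 * L ≤ k := le_trans (Nat.le_ceil _) (by simp [hkdef])
  rcases eq_or_ne (gaugeMeasure h E) ∞ with htop | hfin
  · rw [htop, ENNReal.mul_top (by simp [hkdef])]
    exact le_top
  have key : ∀ n : ℕ, ∃ P : ℕ × (Fin k × Fin k) → Set ℂ,
      (f '' E ⊆ ⋃ p, P p) ∧ (∀ p, ediam (P p) ≤ ((n : ℝ≥0∞) + 1)⁻¹) ∧
      ∑' p, gfun h (ediam (P p)) ≤
        ((k ^ 2 : ℕ) : ℝ≥0∞) * (gaugeMeasure h E + ((n : ℝ≥0∞) + 1)⁻¹) := by
    intro n
    have hr : (0 : ℝ≥0∞) < ((n : ℝ≥0∞) + 1)⁻¹ := ENNReal.inv_pos.2 (by simp)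
    have hrtop : ((n : ℝ≥0∞) + 1)⁻¹ ≠ ∞ := by simp
    obtain ⟨t, ht, htr, hsum⟩ := exists_cover hh E hfin hr hr
    have hsplit : ∀ i, ∃ P : Fin k × Fin k → Set ℂ,
        f '' (t i ∩ E) ⊆ ⋃ p, P p ∧ ∀ p, ediam (P p) ≤ ediam (t i) := fun i => by
      refine split_set hk (by simp [hkdef]) _ _ (ne_top_of_le_ne_top hrtop (htr i)) ?_
      refine ediam_image_le_iff.2 fun x hx y hy => (hf hx.2 hy.2).trans ?_
      gcongr
      exact edist_le_ediam_of_mem hx.1 hy.1
    choose P hP hPd using hsplit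
    refine ⟨fun p => P p.1 p.2, ?_, fun p => (hPd _ _).trans (htr _), ?_⟩
    · rintro _ ⟨z, hz, rfl⟩
      obtain ⟨i, hi⟩ := mem_iUnion.1 (ht hz)
      obtain ⟨q, hq⟩ := mem_iUnion.1 (hP i (mem_image_of_mem f ⟨hi, hz⟩))
      exact mem_iUnion.2 ⟨(i, q), hq⟩
    · refine le_trans ?_ (mul_le_mul_of_nonneg_left hsum zero_le)
      rw [ENNReal.tsum_prod', ← ENNReal.tsum_mul_left]
      refine ENNReal.tsum_le_tsum fun i => ?_
      rw [tsum_fintype]
      refine le_trans (Finset.sum_le_sum fun q _ => gfun_mono hh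
        (ne_top_of_le_ne_top hrtop (htr i)) (hPd i q)) ?_
      simp [sq]
  choose P hP hPd hsum using key
  have hr0 : Tendsto (fun n : ℕ => ((n : ℝ≥0∞) + 1)⁻¹) atTop (𝓝 0) := by
    simpa [Function.comp_def] using
      ENNReal.tendsto_inv_nat_nhds_zero.comp (tendsto_add_atTop_nat 1)
  refine le_trans (mkMetric_le_liminf_tsum (f '' E) _ hr0 P (.of_forall hPd) (.of_forall hP) _) ?_
  refine le_trans (liminf_le_liminf (.of_forall hsum)) (le_of_eq ?_)
  refine Tendsto.liminf_eq ?_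
  have : Tendsto (fun n : ℕ => gaugeMeasure h E + ((n : ℝ≥0∞) + 1)⁻¹) atTop
      (𝓝 (gaugeMeasure h E)) := by simpa using tendsto_const_nhds.add hr0
  exact ENNReal.Tendsto.const_mul this (Or.inr (by simp))

/-- The lower bound for an injection with Lipschitz inverse. -/
theorem gaugeMeasure_le_image (hh : IsGauge h) {f : ℂ → ℂ} {E : Set ℂ} {L : ℝ≥0}
    (hf : ∀ x ∈ E, ∀ y ∈ E, dist x y ≤ L * dist (f x) (f y)) :
    gaugeMeasure h E ≤ ((⌈4 * L⌉₊ + 1) ^ 2 : ℕ) * gaugeMeasure h (f '' E) := by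
  classical
  have hinv : ∀ x ∈ E, Function.invFunOn f E (f x) = x := fun x hx => by
    have hex : ∃ a ∈ E, f a = f x := ⟨x, hx, rfl⟩
    have := hf _ (Function.invFunOn_mem hex) x hx
    rw [Function.invFunOn_eq hex, dist_self, mul_zero] at this
    exact dist_le_zero.1 this
  have hlip : LipschitzOnWith L (Function.invFunOn f E) (f '' E) := by
    refine LipschitzOnWith.of_dist_le_mul ?_
    rintro _ ⟨x, hx, rfl⟩ _ ⟨y, hy, rfl⟩
    rw [hinv x hx, hinv y hy]
    exact hf x hx y hy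
  refine le_trans (measure_mono ?_) (gaugeMeasure_image_le hh hlip)
  exact fun x hx => ⟨f x, mem_image_of_mem f hx, hinv x hx⟩

/-- A countable base of the plane. -/
abbrev Base : Type := {s : Set ℂ // s ∈ countableBasis ℂ}

/-- The union of a finite family of basic sets. -/
def joined (A : Finset Base) : Set ℂ := ⋃ s ∈ A, (s : Set ℂ)

/-- The union of a finite cover. -/
def joinedAll (V : Finset (Finset Base)) : Set ℂ := ⋃ A ∈ V, joined A

lemma isOpen_joinedAll (V : Finset (Finset Base)) : IsOpen (joinedAll V) :=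
  isOpen_biUnion fun _ _ => isOpen_biUnion fun s _ => isOpen_of_mem_countableBasis s.2

/-- `V` is a cover at scale `n` of cost at most `c` up to `1 / (n + 1)`. -/
def Cheap (h : ℝ → ℝ) (c : ℝ≥0∞) (n : ℕ) (V : Finset (Finset Base)) : Prop :=
  (∀ A ∈ V, ediam (joined A) ≤ ((n : ℝ≥0∞) + 1)⁻¹) ∧
    ∑ A ∈ V, gfun h (ediam (joined A)) ≤ c + ((n : ℝ≥0∞) + 1)⁻¹

/-- The measure of a compact set from countably many finite covers. -/
theorem gaugeMeasure_le_iff (hh : IsGauge h) {K : Set ℂ} (hK : IsCompact K) {c : ℝ≥0∞}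
    (hc : c ≠ ∞) :
    gaugeMeasure h K ≤ c ↔ ∀ n : ℕ, ∃ V, Cheap h c n V ∧ K ⊆ joinedAll V := by
  classical
  have hr0 : Tendsto (fun n : ℕ => ((n : ℝ≥0∞) + 1)⁻¹) atTop (𝓝 0) := by
    simpa [Function.comp_def] using
      ENNReal.tendsto_inv_nat_nhds_zero.comp (tendsto_add_atTop_nat 1)
  constructor
  · intro hle n
    set r := ((n : ℝ≥0∞) + 1)⁻¹ with hr
    have hrpos : 0 < r := ENNReal.inv_pos.2 (by simp)
    have hrtop : r ≠ ∞ := by simp [hr]
    have hfin := ne_top_of_le_ne_top hc hle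
    obtain ⟨t, ht, htr, hsum⟩ := exists_cover hh K hfin (ENNReal.half_pos hrpos.ne')
      (ENNReal.half_pos hrpos.ne')
    obtain ⟨ε, hε, hεsum⟩ := ENNReal.exists_pos_sum_of_countable'
      (ENNReal.half_pos hrpos.ne').ne' ℕ
    -- thicken each piece a little
    have hthick : ∀ i, ∃ η : ℝ, 0 < η ∧
        ediam (Metric.thickening η (t i)) ≤ r ∧
        gfun h (ediam (Metric.thickening η (t i))) ≤ gfun h (ediam (t i)) + ε i := by
      intro i
      have hd : ediam (t i) ≠ ∞ :=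
        ne_top_of_le_ne_top hrtop ((htr i).trans ENNReal.half_le_self)
      set d := (ediam (t i)).toReal
      have hdr : d ≤ r.toReal / 2 := by
        have := ENNReal.toReal_mono (ENNReal.div_ne_top hrtop two_ne_zero) (htr i)
        simpa [ENNReal.toReal_div] using this
      have hrr : 0 < r.toReal := ENNReal.toReal_pos hrpos.ne' hrtop
      have hlt : ENNReal.ofReal (h d) < ENNReal.ofReal (h d) + ε i :=
        ENNReal.lt_add_right ENNReal.ofReal_ne_top (hε i).ne'
      have hev : ∀ᶠ x in 𝓝[Ici 0] d, ENNReal.ofReal (h x) < ENNReal.ofReal (h d) + ε i :=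
        ((ENNReal.continuous_ofReal.tendsto _).comp
          ((hh.cont d ENNReal.toReal_nonneg).tendsto)).eventually (gt_mem_nhds hlt)
      obtain ⟨ρ, hρ, hball⟩ := Metric.mem_nhdsWithin_iff.1 hev
      set η := min (ρ / 4) (r.toReal / 4)
      have hη : 0 < η := lt_min (by linarith) (by linarith)
      have hle2 : ediam (Metric.thickening η (t i)) ≤ ENNReal.ofReal (d + 2 * η) := by
        refine (ediam_thickening_le ⟨η, hη.le⟩).trans ?_
        rw [ENNReal.ofReal_add ENNReal.toReal_nonneg (by linarith), ENNReal.ofReal_toReal hd,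
          ENNReal.ofReal_mul (by norm_num)]
        refine add_le_add le_rfl (le_of_eq ?_)
        rw [ENNReal.ofReal_ofNat, ENNReal.ofReal_eq_coe_nnreal hη.le]
        rfl
      refine ⟨η, hη, ?_, ?_⟩
      · refine hle2.trans ((ENNReal.ofReal_le_ofReal ?_).trans (ENNReal.ofReal_toReal hrtop).le)
        linarith [min_le_right (ρ / 4) (r.toReal / 4)]
      · refine (gfun_mono hh ENNReal.ofReal_ne_top hle2).trans ?_
        rw [gfun, ENNReal.toReal_ofReal (by positivity)]
        have hmem : d + 2 * η ∈ Metric.ball d ρ ∩ Ici 0 := by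
          refine ⟨?_, show (0 : ℝ) ≤ d + 2 * η by positivity⟩
          rw [Metric.mem_ball, Real.dist_eq, add_sub_cancel_left, abs_of_pos (by linarith)]
          linarith [min_le_left (ρ / 4) (r.toReal / 4)]
        exact (hball hmem).le
    choose η hη hηr hηh using hthick
    obtain ⟨F, hF⟩ := hK.elim_finite_subcover (fun i => Metric.thickening (η i) (t i))
      (fun i => Metric.isOpen_thickening)
      (ht.trans (iUnion_mono fun i => Metric.self_subset_thickening (hη i) _))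
    obtain ⟨Kc, hKc, hKsub, hKeq⟩ := hK.finite_compact_cover F
      (fun i => Metric.thickening (η i) (t i)) (fun i _ => Metric.isOpen_thickening) hF
    have hbase : ∀ i, ∃ A : Finset Base,
        Kc i ⊆ joined A ∧ joined A ⊆ Metric.thickening (η i) (t i) := by
      intro i
      have hcov : Kc i ⊆ ⋃ s : {s : Base // (s : Set ℂ) ⊆ Metric.thickening (η i) (t i)},
          (s.1 : Set ℂ) := fun z hz => by
        obtain ⟨s, hs, hzs, hsub⟩ := (isBasis_countableBasis ℂ).exists_subset_of_mem_open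
          (hKsub i hz) Metric.isOpen_thickening
        exact mem_iUnion.2 ⟨⟨⟨s, hs⟩, hsub⟩, hzs⟩
      obtain ⟨G, hG⟩ := (hKc i).elim_finite_subcover _
        (fun s => isOpen_of_mem_countableBasis s.1.2) hcov
      refine ⟨G.image Subtype.val, fun z hz => ?_, fun z hz => ?_⟩
      · obtain ⟨s, hs, hzs⟩ := mem_iUnion₂.1 (hG hz)
        exact mem_iUnion₂.2 ⟨s.1, Finset.mem_image_of_mem _ hs, hzs⟩
      · obtain ⟨s, hs, hzs⟩ := mem_iUnion₂.1 hz
        obtain ⟨s', -, rfl⟩ := Finset.mem_image.1 hs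
        exact s'.2 hzs
    choose A hA1 hA2 using hbase
    refine ⟨F.image A, ⟨?_, ?_⟩, ?_⟩
    · intro B hB
      obtain ⟨i, -, rfl⟩ := Finset.mem_image.1 hB
      exact (ediam_mono (hA2 i)).trans (hηr i)
    · refine (Finset.sum_image_le_of_nonneg fun _ _ => zero_le).trans ?_
      calc ∑ i ∈ F, gfun h (ediam (joined (A i))) ≤ ∑ i ∈ F, (gfun h (ediam (t i)) + ε i) :=
            Finset.sum_le_sum fun i _ => (gfun_mono hh
              (ne_top_of_le_ne_top hrtop (hηr i)) (ediam_mono (hA2 i))).trans (hηh i)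
        _ ≤ ∑' i, (gfun h (ediam (t i)) + ε i) := ENNReal.sum_le_tsum F
        _ ≤ gaugeMeasure h K + r / 2 + r / 2 := by
            rw [ENNReal.tsum_add]; exact add_le_add hsum hεsum.le
        _ ≤ c + r := by rw [add_assoc, ENNReal.add_halves]; exact add_le_add hle le_rfl
    · intro z hz
      rw [hKeq] at hz
      obtain ⟨i, hi, hzi⟩ := mem_iUnion₂.1 hz
      exact mem_iUnion₂.2 ⟨A i, Finset.mem_image_of_mem _ hi, hA1 i hzi⟩
  · intro hall
    choose V hV hKV using hall
    refine le_trans (mkMetric_le_liminf_sum K _ hr0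
      (fun n (A : {A // A ∈ V n}) => joined A.1) (.of_forall fun n A => (hV n).1 A.1 A.2)
      (.of_forall fun n z hz => by
        obtain ⟨A, hA, hzA⟩ := mem_iUnion₂.1 (hKV n hz)
        exact mem_iUnion.2 ⟨⟨A, hA⟩, hzA⟩) _) ?_
    refine le_trans (liminf_le_liminf (.of_forall fun n => ?_))
      (le_of_eq (Tendsto.liminf_eq (f := atTop) (u := fun n : ℕ => c + ((n : ℝ≥0∞) + 1)⁻¹) ?_))
    · rw [Finset.univ_eq_attach, Finset.sum_attach (V n) fun A => gfun h (ediam (joined A))]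
      exact (hV n).2
    · simpa using tendsto_const_nhds.add hr0

/-- The part of the closure of the points with imaginary part at least `a`. -/
def upperPart {ι : Type*} (x : ι → ℂ) (a : ℝ) : Set ℂ := closure (range x) ∩ {z | a ≤ z.im}

lemma isCompact_upperPart {ι : Type*} {x : ι → ℂ} (hx : Bornology.IsBounded (range x)) (a : ℝ) :
    IsCompact (upperPart x a) :=
  (hx.isCompact_closure).inter_right (isClosed_le continuous_const Complex.continuous_im)

/-- Covering by an open set, read on countably many conditions. -/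
lemma upperPart_subset_iff {ι : Type*} {x : ι → ℂ} (hx : Bornology.IsBounded (range x)) (a : ℝ)
    {O : Set ℂ} (hO : IsOpen O) :
    upperPart x a ⊆ O ↔ ∃ m : ℕ, ∀ i, a - 1 / ((m : ℝ) + 1) < (x i).im →
      x i ∉ Metric.thickening (1 / ((m : ℝ) + 1)) Oᶜ := by
  constructor
  · intro hsub
    by_contra hcon
    push Not at hcon
    choose i hi hthick using hcon
    obtain ⟨z, hz, φ, hφ, hlim⟩ :=
      (hx.isCompact_closure).tendsto_subseq fun m => subset_closure (mem_range_self (i m))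
    have h0 : Tendsto (fun m => 1 / ((φ m : ℝ) + 1)) atTop (𝓝 0) :=
      tendsto_one_div_add_atTop_nhds_zero_nat.comp hφ.tendsto_atTop
    have ha : a ≤ z.im := by
      refine le_of_tendsto_of_tendsto (f := fun m => a - 1 / ((φ m : ℝ) + 1)) ?_
        ((Complex.continuous_im.tendsto z).comp hlim) (.of_forall fun m => (hi (φ m)).le)
      simpa using tendsto_const_nhds.sub h0
    refine absurd (hsub ⟨hz, ha⟩) (?_ : z ∈ Oᶜ)
    rw [← hO.isClosed_compl.closure_eq]
    refine Metric.mem_closure_iff.2 fun ε hε => ?_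
    obtain ⟨m, hm1, hm2⟩ := ((Metric.tendsto_nhds.1 hlim (ε / 2) (by linarith)).and
      (h0.eventually (gt_mem_nhds (show (0 : ℝ) < ε / 2 by linarith)))).exists
    obtain ⟨b, hb, hdb⟩ := Metric.mem_thickening_iff.1 (hthick (φ m))
    refine ⟨b, hb, ?_⟩
    have := dist_triangle z ((x ∘ i ∘ φ) m) b
    simp only [Function.comp] at hm1 this
    rw [dist_comm] at hm1
    linarith
  · rintro ⟨m, hm⟩ z ⟨hz, ha⟩
    by_contra hzO
    have hpos : (0 : ℝ) < 1 / ((m : ℝ) + 1) := by positivity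
    obtain ⟨_, ⟨i, rfl⟩, hi⟩ := Metric.mem_closure_iff.1 hz _ hpos
    refine hm i ?_ (Metric.mem_thickening_iff.2 ⟨z, hzO, by rwa [dist_comm]⟩)
    have := Complex.abs_im_le_norm (z - x i)
    rw [← dist_eq_norm, Complex.sub_im] at this
    change a ≤ z.im at ha
    linarith [le_abs_self (z.im - (x i).im)]

end Vale.Agent.P164
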