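import Mathlib

/-!
P164: a continuous measurable version of Brownian motion, equality in law, and Blumenthal's
zero-one law.
-/

open Set Filter MeasureTheory ProbabilityTheory
open scoped NNReal ENNReal Topology BoundedContinuousFunction

namespace Vale.Agent.P164

/-- A Brownian motion with every path continuous and every value measurable. -/
structure IsNiceBM {Ω : Type*} [MeasurableSpace Ω] (X : ℝ≥0 → Ω → ℝ) (P : Measure Ω) : Prop where
  law : IsPreBrownianReal X P
  meas : ∀ t, Measurable (X t)
  cont : ∀ ω, Continuous (X · ω)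

variable {Ω : Type*} [MeasurableSpace Ω] {P : Measure Ω} {B X Y : ℝ≥0 → Ω → ℝ}

lemma exists_nice (hB : IsBrownianReal B P) :
    ∃ X, IsNiceBM X P ∧ ∀ᵐ ω ∂P, ∀ t, X t ω = B t ω := by
  classical
  set C : ℚ≥0 → Ω → ℝ := fun q => (hB.toIsPreBrownianReal.aemeasurable (q : ℝ≥0)).mk _
  have hC : ∀ q, Measurable (C q) := fun q => AEMeasurable.measurable_mk _
  have hgood : ∀ᵐ ω ∂P, Continuous (B · ω) ∧ ∀ q : ℚ≥0, B q ω = C q ω :=
    hB.cont.and (ae_all_iff.2 fun q => AEMeasurable.ae_eq_mk _)
  obtain ⟨N, hN, hNm, hN0⟩ := exists_measurable_superset_of_null (ae_iff.1 hgood)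
  have hout : ∀ ω, ω ∉ N → Continuous (B · ω) ∧ ∀ q : ℚ≥0, B q ω = C q ω := fun ω hω => by
    by_contra h
    exact hω (hN h)
  set X : ℝ≥0 → Ω → ℝ := fun t ω => if ω ∈ N then 0 else B t ω with hX
  have hXc : ∀ ω, Continuous (X · ω) := fun ω => by
    by_cases hω : ω ∈ N
    · simpa [hX, hω] using continuous_const
    · simpa [hX, hω] using (hout ω hω).1
  have hXq : ∀ q : ℚ≥0, Measurable (X q) := fun q => by
    have e : X q = fun ω => if ω ∈ N then 0 else C q ω := by
      funext ω
      by_cases hω : ω ∈ N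
      · simp [hX, hω]
      · simp [hX, hω, (hout ω hω).2 q]
    rw [e]
    exact Measurable.ite hNm measurable_const (hC q)
  have hdense : DenseRange (fun q : ℚ≥0 => (q : ℝ≥0)) := by
    refine dense_iff_inter_open.2 fun U hU hne => ?_
    obtain ⟨x, hx⟩ := hne
    obtain ⟨ε, hε, hball⟩ := Metric.isOpen_iff.1 hU x hx
    obtain ⟨r, hr1, hr2⟩ := exists_rat_btwn (show (x : ℝ) < x + ε by linarith)
    have hr0 : (0 : ℚ) ≤ r := by
      have : (0 : ℝ) ≤ r := x.2.trans hr1.le
      exact_mod_cast this
    refine ⟨((r.toNNRat : ℚ≥0) : ℝ≥0), hball ?_, mem_range_self _⟩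
    rw [Metric.mem_ball, NNReal.dist_eq]
    have he : (((r.toNNRat : ℚ≥0) : ℝ≥0) : ℝ) = (r : ℝ) := by
      conv_rhs => rw [← Rat.coe_toNNRat r hr0]
      norm_cast
    rw [he, abs_lt]
    constructor <;> linarith
  have hXm : ∀ t, Measurable (X t) := fun t => by
    obtain ⟨u, hu, hlim⟩ := mem_closure_iff_seq_limit.1 (hdense t)
    choose q hq using hu
    refine measurable_of_tendsto_metrizable (f := fun n => X (u n)) (fun n => ?_) ?_
    · rw [← hq n]; exact hXq _
    · exact tendsto_pi_nhds.2 fun ω => ((hXc ω).tendsto t).comp hlim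
  have hae : ∀ᵐ ω ∂P, ω ∉ N := by
    rw [ae_iff]; simpa using hN0
  have hXB : ∀ᵐ ω ∂P, ∀ t, X t ω = B t ω := hae.mono fun ω hω t => by simp [hX, hω]
  exact ⟨X, ⟨hB.toIsPreBrownianReal.congr fun t => hXB.mono fun ω hω => (hω t).symm, hXm, hXc⟩,
    hXB⟩

lemma IsNiceBM.measurable_path (hX : IsNiceBM X P) : Measurable fun ω => (X · ω) :=
  measurable_pi_lambda _ hX.meas

lemma IsNiceBM.map_path_eq [IsProbabilityMeasure P] (hX : IsNiceBM X P) (hY : IsNiceBM Y P) :
    P.map (fun ω => (X · ω)) = P.map (fun ω => (Y · ω)) :=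
  (map_eq_iff_forall_finset_map_restrict_eq hX.measurable_path.aemeasurable
    hY.measurable_path.aemeasurable).2 fun I => by
      rw [(hX.law.hasLaw I).map_eq, (hY.law.hasLaw I).map_eq]

lemma IsNiceBM.prob_eq [IsProbabilityMeasure P] (hX : IsNiceBM X P) (hY : IsNiceBM Y P)
    {S : Set (ℝ≥0 → ℝ)} (hS : MeasurableSet S) :
    P {ω | (X · ω) ∈ S} = P {ω | (Y · ω) ∈ S} := by
  have := congrArg (fun μ => μ S) (hX.map_path_eq hY)
  simpa [Measure.map_apply hX.measurable_path hS, Measure.map_apply hY.measurable_path hS,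
    preimage] using this

lemma IsNiceBM.scale (hX : IsNiceBM X P) {c : ℝ≥0} (hc : c ≠ 0) :
    IsNiceBM (fun t ω => (√c)⁻¹ * X (c * t) ω) P where
  law := hX.law.smul hc
  meas _ := (hX.meas _).const_mul _
  cont ω := continuous_const.mul ((hX.cont ω).comp (continuous_const.mul continuous_id))

lemma IsNiceBM.shift (hX : IsNiceBM X P) (s : ℝ≥0) :
    IsNiceBM (fun t ω => X (s + t) ω - X s ω) P where
  law := hX.law.shift s
  meas _ := (hX.meas _).sub (hX.meas _)
  cont ω := ((hX.cont ω).comp (continuous_const.add continuous_id)).sub continuous_const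

/-- Blumenthal: an event known at every positive time has probability zero or one. -/
theorem IsNiceBM.zero_one [IsProbabilityMeasure P] (hX : IsNiceBM X P) {E : Set Ω}
    (hE : ∀ ε : ℝ≥0, 0 < ε → ∃ t, 0 < t ∧ t ≤ ε ∧ ∃ S : Set (Iic t → ℝ),
      MeasurableSet S ∧ E = {ω | (fun u : Iic t => X u ω) ∈ S}) :
    P E = 0 ∨ P E = 1 := by
  classical
  obtain ⟨T, hT, -, S₀, hS₀, hES₀⟩ := hE 1 one_pos
  have hEm : MeasurableSet E := by
    rw [hES₀]
    exact (measurable_pi_lambda _ fun u : Iic T => hX.meas u) hS₀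
  choose t ht htn S hS hES using fun n : ℕ => hE (1 / ((n : ℝ≥0) + 1)) (by positivity)
  have htlim : Tendsto t atTop (𝓝 0) := by
    refine tendsto_of_tendsto_of_tendsto_of_le_of_le tendsto_const_nhds ?_ (fun n => zero_le) htn
    rw [← NNReal.tendsto_coe]
    simpa using tendsto_one_div_add_atTop_nhds_zero_nat (𝕜 := ℝ)
  -- independence from every finite family of values
  have hfin : ∀ I : Finset ℝ≥0, (P.restrict E).map (fun ω => I.restrict (X · ω)) =
      P E • P.map (fun ω => I.restrict (X · ω)) := by
    intro I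
    have hmI : Measurable fun ω => I.restrict (X · ω) :=
      measurable_pi_lambda _ fun i => hX.meas i
    have : IsFiniteMeasure ((P.restrict E).map fun ω => I.restrict (X · ω)) := inferInstance
    have : IsFiniteMeasure (P E • P.map fun ω => I.restrict (X · ω)) :=
      Measure.smul_finite _ (measure_ne_top P E)
    refine ext_of_forall_integral_eq_of_IsFiniteMeasure fun g => ?_
    have hg : Measurable g := g.continuous.measurable
    rw [integral_smul_measure, integral_map hmI.aemeasurable hg.aestronglyMeasurable,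
      integral_map hmI.aemeasurable hg.aestronglyMeasurable, smul_eq_mul]
    set sh : ℕ → Ω → (I → ℝ) := fun n ω i => X (t n + i) ω - X (t n) ω
    have hsh : ∀ n, Measurable (sh n) := fun n =>
      measurable_pi_lambda _ fun i => (hX.meas _).sub (hX.meas _)
    have hfix : ∀ n, ∫ ω in E, g (sh n ω) ∂P =
        (P E).toReal * ∫ ω, g (I.restrict (X · ω)) ∂P := by
      intro n
      have hind := hX.law.indepFun_shift (t n)
      have hlaw : ∫ ω, g (sh n ω) ∂P = ∫ ω, g (I.restrict (X · ω)) ∂P := by
        rw [← integral_map (hsh n).aemeasurable hg.aestronglyMeasurable,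
          ← integral_map hmI.aemeasurable hg.aestronglyMeasurable]
        exact congrArg (fun μ => ∫ y, g y ∂μ)
          (((hX.shift (t n)).law.hasLaw I).map_eq.trans (hX.law.hasLaw I).map_eq.symm)
      have hprod := hind.integral_fun_comp_mul_comp
        (f := fun x => g (I.restrict x)) (g := (S n).indicator fun _ => (1 : ℝ))
        (measurable_pi_lambda _ fun u => (hX.meas _).sub (hX.meas _)).aemeasurable
        (measurable_pi_lambda _ fun u : Iic (t n) => hX.meas u).aemeasurable
        (hg.comp (Finset.measurable_restrict (X := fun _ : ℝ≥0 => ℝ) I)).aestronglyMeasurable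
        (measurable_const.indicator (hS n)).aestronglyMeasurable
      have hind' : (fun ω => (S n).indicator (fun _ => (1 : ℝ)) fun u : Iic (t n) => X u ω) =
          E.indicator fun _ => (1 : ℝ) := by
        funext ω
        rw [hES n]
        rfl
      rw [← integral_indicator hEm]
      calc ∫ ω, E.indicator (fun ω => g (sh n ω)) ω ∂P
          = ∫ ω, g (sh n ω) * E.indicator (fun _ => (1 : ℝ)) ω ∂P := by
            congr 1; funext ω; simp [Set.indicator]
        _ = (∫ ω, g (sh n ω) ∂P) * ∫ ω, E.indicator (fun _ => (1 : ℝ)) ω ∂P := by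
            rw [← hind']; exact hprod
        _ = _ := by
            rw [hlaw, integral_indicator hEm, setIntegral_const, measureReal_def, smul_eq_mul,
              mul_one, mul_comm]
    have hlim : Tendsto (fun n => ∫ ω in E, g (sh n ω) ∂P) atTop
        (𝓝 (∫ ω in E, g (I.restrict (X · ω)) ∂P)) := by
      refine tendsto_integral_of_dominated_convergence (fun _ => ‖g‖)
        (fun n => (hg.comp (hsh n)).aestronglyMeasurable) (integrable_const _)
        (fun n => .of_forall fun ω => g.norm_coe_le_norm _) ?_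
      filter_upwards [ae_restrict_of_ae hX.law.eval_zero_ae_eq_zero] with ω h0
      refine (g.continuous.tendsto _).comp (tendsto_pi_nhds.2 fun i => ?_)
      have h1 : Tendsto (fun n => X (t n + (i : ℝ≥0)) ω) atTop (𝓝 (X i ω)) := by
        simpa [Function.comp_def] using ((hX.cont ω).tendsto (0 + (i : ℝ≥0))).comp
          (htlim.add_const (i : ℝ≥0))
      have h2 : Tendsto (fun n => X (t n) ω) atTop (𝓝 0) := by
        simpa [Function.comp_def, h0] using ((hX.cont ω).tendsto 0).comp htlim
      simpa using h1.sub h2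
    exact tendsto_nhds_unique hlim (by simp [hfix])
  have hpath : (P.restrict E).map (fun ω => (X · ω)) = P E • P.map (fun ω => (X · ω)) := by
    have hmI : ∀ I : Finset ℝ≥0, Measurable fun ω => I.restrict (X · ω) := fun I =>
      measurable_pi_lambda _ fun i => hX.meas i
    refine IsProjectiveLimit.unique (P := fun I : Finset ℝ≥0 =>
      (P.restrict E).map fun ω => I.restrict (X · ω)) (isProjectiveLimit_map
        hX.measurable_path.aemeasurable) fun I => ?_
    dsimp only
    rw [Measure.map_smul, Measure.map_map (Finset.measurable_restrict I) hX.measurable_path,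
      hfin I]
    rfl
  have hpre : E = (fun ω => (X · ω)) ⁻¹' {U | (fun u : Iic T => U u) ∈ S₀} := by
    rw [hES₀]; rfl
  have hm : MeasurableSet {U : ℝ≥0 → ℝ | (fun u : Iic T => U u) ∈ S₀} :=
    (measurable_pi_lambda _ fun u : Iic T => measurable_pi_apply (u : ℝ≥0)) hS₀
  have := congrArg (fun μ => μ {U : ℝ≥0 → ℝ | (fun u : Iic T => U u) ∈ S₀}) hpath
  simp only [Measure.map_apply hX.measurable_path hm, Measure.smul_apply, smul_eq_mul] at this
  rw [Measure.restrict_apply (hX.measurable_path hm), ← hpre, inter_self] at this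
  rcases eq_or_ne (P E) 0 with h0 | h0
  · exact Or.inl h0
  · exact Or.inr ((ENNReal.mul_eq_left h0 (measure_ne_top P E)).1 this.symm)

end Vale.Agent.P164
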