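import Vale.Agent.P164.Moments

/-!
P164: for `0 < κ < 8` the tip at time one is almost surely not always on the real line.
-/

open Set Filter Metric MeasureTheory ProbabilityTheory Complex
open scoped NNReal ENNReal Topology

namespace Vale.Agent.P164

variable {Ω : Type*} [MeasurableSpace Ω] {P : Measure Ω} [IsProbabilityMeasure P]
  {X : ℝ≥0 → Ω → ℝ} {κ y p : ℝ}

omit [IsProbabilityMeasure P] in
/-- Fatou, for real functions. -/
lemma fatou_real {g : ℕ → Ω → ℝ} {g0 : Ω → ℝ} {L : ℝ} (hg0 : ∀ n ω, 0 ≤ g n ω)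
    (hgi : ∀ n, Integrable (g n) P) (hlim : ∀ᵐ ω ∂P, Tendsto (fun n => g n ω) atTop (𝓝 (g0 ω)))
    (hL : Tendsto (fun n => ∫ ω, g n ω ∂P) atTop (𝓝 L)) :
    Integrable g0 P ∧ ∫ ω, g0 ω ∂P ≤ L := by
  have hm : AEStronglyMeasurable g0 P :=
    aestronglyMeasurable_of_tendsto_ae atTop (fun n => (hgi n).aestronglyMeasurable) hlim
  have h0 : ∀ᵐ ω ∂P, 0 ≤ g0 ω := hlim.mono fun ω hω => ge_of_tendsto' hω fun n => hg0 n ω
  have hle : ∫⁻ ω, ENNReal.ofReal (g0 ω) ∂P ≤ ENNReal.ofReal L := by
    have e : ∀ n, ∫⁻ ω, ENNReal.ofReal (g n ω) ∂P = ENNReal.ofReal (∫ ω, g n ω ∂P) := fun n =>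
      (ofReal_integral_eq_lintegral_ofReal (hgi n) (.of_forall (hg0 n))).symm
    calc ∫⁻ ω, ENNReal.ofReal (g0 ω) ∂P
        = ∫⁻ ω, liminf (fun n => ENNReal.ofReal (g n ω)) atTop ∂P :=
          lintegral_congr_ae (hlim.mono fun ω hω =>
            ((ENNReal.tendsto_ofReal hω).liminf_eq).symm)
      _ ≤ liminf (fun n => ∫⁻ ω, ENNReal.ofReal (g n ω) ∂P) atTop :=
          lintegral_liminf_le' fun n => (hgi n).aemeasurable.ennreal_ofReal
      _ = ENNReal.ofReal L := by
          simp only [e]; exact (ENNReal.tendsto_ofReal hL).liminf_eq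
  have hL0 : 0 ≤ L := ge_of_tendsto' hL fun n => integral_nonneg (hg0 n)
  refine ⟨⟨hm, (hasFiniteIntegral_iff_ofReal h0).2 (hle.trans_lt ENNReal.ofReal_lt_top)⟩, ?_⟩
  rw [integral_eq_lintegral_of_nonneg_ae h0 hm]
  exact ENNReal.toReal_le_of_le_ofReal hL0 hle

/-! ### Scaling and continuity of the moments -/

lemma mom_scale (hX : IsNiceBM X P) (hy : 0 < y) (p : ℝ) {u : ℝ≥0} (hu : u ≠ 0) :
    mom P X κ y p u = ((√(u : ℝ) ^ p : ℝ) : ℂ) * mom P X κ (y / √(u : ℝ)) p 1 := by
  have hs : 0 < √(u : ℝ) := Real.sqrt_pos.2 (by exact_mod_cast pos_iff_ne_zero.2 hu)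
  unfold mom
  rw [integral_height_eq hX (hX.scale hu) (div_pos hy hs) κ 1 (measurable_pw p).stronglyMeasurable,
    ← integral_const_mul]
  congr 1
  funext ω
  rw [height_scale (continuous_drive κ hX ω) hy hu, pw_real_mul hs]
  congr 3
  funext v
  simp only [drive]
  ring

lemma continuousAt_mom_one (hX : IsNiceBM X P) (hy : 0 < y) (hp : p ≤ 2) :
    ContinuousAt (fun y => mom P X κ y p 1) y := by
  refine continuousAt_of_dominated (bound := fun ω => (y / 2) ^ p + (2 * y) ^ p + 1 +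
      (2 * drive κ X ω 1 ^ 2 + 2 * (2 * y + 4 / y) ^ 2)) ?_ ?_ ?_ ?_
  · filter_upwards [Ioi_mem_nhds hy] with z hz
    exact ((measurable_pw p).comp (measurable_height hX hz κ 1)).aestronglyMeasurable
  · filter_upwards [Ioo_mem_nhds (show y / 2 < y by linarith) (show y < 2 * y by linarith)] with z hz
    refine .of_forall fun ω => ?_
    have hz0 : 0 < z := (by linarith : 0 < y / 2).trans hz.1
    refine (norm_pw_height_le hX hz0 hp 1 ω).trans ?_
    have hzp : z ^ p ≤ (y / 2) ^ p + (2 * y) ^ p := by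
      rcases le_or_gt 0 p with h | h
      · linarith [Real.rpow_le_rpow hz0.le hz.2.le h, Real.rpow_nonneg (half_pos hy).le p]
      · linarith [Real.rpow_le_rpow_of_nonpos (half_pos hy) hz.1.le h.le,
          Real.rpow_nonneg (by linarith : (0 : ℝ) ≤ 2 * y) p]
    have hn := norm_height_le (continuous_drive κ hX ω) hz0 1
    have h2 : 2 / z * ((1 : ℝ≥0) : ℝ) ≤ 4 / y := by
      rw [NNReal.coe_one, mul_one, div_le_div_iff₀ hz0 hy]; linarith [hz.1]
    have hsq : ‖height (drive κ X ω) z 1‖ ^ 2 ≤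
        2 * drive κ X ω 1 ^ 2 + 2 * (2 * y + 4 / y) ^ 2 := by
      have : ‖height (drive κ X ω) z 1‖ ≤ |drive κ X ω 1| + (2 * y + 4 / y) := by linarith [hz.2]
      nlinarith [pow_le_pow_left₀ (norm_nonneg _) this 2, sq_abs (drive κ X ω 1),
        sq_nonneg (|drive κ X ω 1| - (2 * y + 4 / y))]
    linarith
  · exact (integrable_const _).add
      ((((memLp_drive hX κ 1 2).integrable_sq).const_mul 2).add (integrable_const _))
  · exact .of_forall fun ω => (continuousAt_pw p (hy.trans_le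
      (le_im_height (continuous_drive κ hX ω) hy 1))).comp'
      (f := fun z => height (drive κ X ω) z 1)
      (continuousAt_height (continuous_drive κ hX ω) hy 1)

lemma continuousAt_mom (hX : IsNiceBM X P) (hy : 0 < y) (hp : p ≤ 2) {u : ℝ} (hu : 0 < u) :
    ContinuousAt (fun x : ℝ => mom P X κ y p x.toNNReal) u := by
  have h : ContinuousAt (fun x : ℝ => ((√x ^ p : ℝ) : ℂ) * mom P X κ (y / √x) p 1) u := by
    refine ContinuousAt.mul ?_ ?_
    · exact Complex.continuous_ofReal.continuousAt.comp'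
        ((Real.continuousAt_rpow_const _ _ (Or.inl (Real.sqrt_pos.2 hu).ne')).comp'
          Real.continuous_sqrt.continuousAt)
    · exact (continuousAt_mom_one hX (div_pos hy (Real.sqrt_pos.2 hu)) hp).comp' (f := fun x => y / √x)
        (continuousAt_const.div Real.continuous_sqrt.continuousAt (Real.sqrt_pos.2 hu).ne')
  refine h.congr ((eventually_gt_nhds hu).mono fun x hx => ?_)
  dsimp only
  rw [mom_scale hX hy p (Real.toNNReal_pos.2 hx).ne', Real.coe_toNNReal x hx.le]

omit [IsProbabilityMeasure P] in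
lemma height_zero_ae (hX : IsNiceBM X P) (hy : 0 < y) (κ : ℝ) :
    ∀ᵐ ω ∂P, height (drive κ X ω) y 0 = (y : ℂ) * I := by
  filter_upwards [hX.law.eval_zero_ae_eq_zero] with ω h0
  rw [height_zero hy]
  simp [drive, h0]

lemma mom_zero (hX : IsNiceBM X P) (hy : 0 < y) (κ p : ℝ) :
    mom P X κ y p 0 = pw p ((y : ℂ) * I) := by
  have h : ∀ᵐ ω ∂P, pw p (height (drive κ X ω) y 0) = pw p ((y : ℂ) * I) :=
    (height_zero_ae hX hy κ).mono fun ω hω => by rw [hω]
  rw [mom, integral_congr_ae h]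
  simp

lemma continuousOn_mom (hX : IsNiceBM X P) (hκ : 0 ≤ κ) (hy : 0 < y) {b : ℝ} (hb1 : 1 ≤ b)
    (hb2 : b ≤ 2) : ContinuousOn (fun x : ℝ => mom P X κ y b x.toNNReal) (Ici 0) := by
  intro u hu
  rcases eq_or_lt_of_le (show (0 : ℝ) ≤ u from hu) with rfl | h
  · exact (hasDeriv_mom hX hκ hy hb1 hb2 le_rfl).continuousWithinAt
  · exact (continuousAt_mom hX hy hb2 h).continuousWithinAt

lemma mom_two_one (hX : IsNiceBM X P) (hκ : 0 ≤ κ) (hy : 0 < y) :
    mom P X κ y 2 1 = ((κ - 4 - y ^ 2 : ℝ) : ℂ) := by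
  have hc := constant_of_has_deriv_right_zero
    (f := fun x : ℝ => mom P X κ y 2 x.toNNReal - ((κ - 4 : ℝ) : ℂ) * (x : ℂ))
    (a := 0) (b := 1) ?_ (fun x hx => ?_) 1 ⟨zero_le_one, le_rfl⟩
  · simp only [Real.toNNReal_one, Real.toNNReal_zero, mom_zero hX hy, pw_two, ofReal_one,
      ofReal_zero, mul_one, mul_zero, sub_zero, mul_pow, I_sq] at hc
    rw [sub_eq_iff_eq_add.1 hc]
    push_cast
    ring
  · exact ((continuousOn_mom hX hκ hy one_le_two le_rfl).mono fun x hx => hx.1).sub
      (Continuous.continuousOn (by fun_prop))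
  · have h0 : mom P X κ y 0 x.toNNReal = 1 := by simp [mom, pw_zero]
    refine ((hasDeriv_mom hX hκ hy one_le_two le_rfl hx.1).sub
      (((hasDerivWithinAt_id x (Ici x)).ofReal_comp).const_mul ((κ - 4 : ℝ) : ℂ))).congr_deriv ?_
    rw [sub_self, h0, coef]
    push_cast
    ring

lemma mom_one_of_coef_zero (hX : IsNiceBM X P) (hκ : 0 ≤ κ) (hy : 0 < y) {a : ℝ} (h1 : 1 ≤ a)
    (h2 : a ≤ 2) (hc : coef κ a = 0) : mom P X κ y a 1 = pw a ((y : ℂ) * I) := by
  have h := constant_of_has_deriv_right_zero (f := fun x : ℝ => mom P X κ y a x.toNNReal)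
    (a := 0) (b := 1) ((continuousOn_mom hX hκ hy h1 h2).mono fun x hx => hx.1)
    (fun x hx => (hasDeriv_mom hX hκ hy h1 h2 hx.1).congr_deriv (by simp [hc]))
    1 ⟨zero_le_one, le_rfl⟩
  simpa [mom_zero hX hy] using h

/-- The second absolute moment. -/
lemma integral_sq (hX : IsNiceBM X P) (hκ : 0 ≤ κ) (hy : 0 < y) :
    ∫ ω, ‖height (drive κ X ω) y 1‖ ^ 2 ∂P =
      κ - 4 - y ^ 2 + 2 * ∫ ω, (height (drive κ X ω) y 1).im ^ 2 ∂P := by
  have i2 := integrable_pw_height hX hy κ (le_refl (2 : ℝ)) 1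
  have hre : ∫ ω, (pw 2 (height (drive κ X ω) y 1)).re ∂P = κ - 4 - y ^ 2 := by
    rw [show (fun ω => (pw 2 (height (drive κ X ω) y 1)).re) =
      fun ω => Complex.reCLM (pw 2 (height (drive κ X ω) y 1)) from rfl,
      Complex.reCLM.integral_comp_comm i2, show ∫ ω, pw 2 (height (drive κ X ω) y 1) ∂P =
      mom P X κ y 2 1 from rfl, mom_two_one hX hκ hy, Complex.reCLM_apply, ofReal_re]
  have iim : Integrable (fun ω => (height (drive κ X ω) y 1).im ^ 2) P :=
    (integrable_height_sq hX hy κ 1).mono'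
      ((Complex.measurable_im.comp (measurable_height hX hy κ 1)).pow_const 2).aestronglyMeasurable
      (.of_forall fun ω => by
        rw [Real.norm_of_nonneg (sq_nonneg _), ← normSq_eq_norm_sq, normSq_apply]; nlinarith)
  rw [← hre, ← integral_const_mul]
  have ire : Integrable (fun ω => (pw 2 (height (drive κ X ω) y 1)).re) P := i2.re
  rw [← integral_add ire (iim.const_mul 2)]
  congr 1
  funext ω
  rw [pw_two, ← normSq_eq_norm_sq, normSq_apply, sq (height (drive κ X ω) y 1), mul_re]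
  ring

lemma integral_sq_le (hX : IsNiceBM X P) (hκ : 0 ≤ κ) (hy : 0 < y) :
    ∫ ω, ‖height (drive κ X ω) y 1‖ ^ 2 ∂P ≤ κ + 4 + y ^ 2 := by
  have h : ∫ ω, (height (drive κ X ω) y 1).im ^ 2 ∂P ≤ y ^ 2 + 4 := by
    refine (integral_mono_of_nonneg (.of_forall fun ω => sq_nonneg _) (integrable_const (y ^ 2 + 4))
      (.of_forall fun ω => ?_)).trans (le_of_eq (by simp))
    have := im_height_sq_le (continuous_drive κ hX ω) hy 1
    simpa using this
  rw [integral_sq hX hκ hy]
  linarith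

/-! ### If the tip at time one is real, it is zero -/

/-- The tip at time one is almost surely on the real line. -/
def RealTip (P : Measure Ω) (X : ℝ≥0 → Ω → ℝ) (κ : ℝ) : Prop :=
  ∀ᵐ ω ∂P, ∃ x : ℝ, IsTip (drive κ X ω) 1 x

lemma tendsto_integral_sq (hX : IsNiceBM X P) (hκ : 0 ≤ κ) (hr : RealTip P X κ) :
    Tendsto (fun y => ∫ ω, ‖height (drive κ X ω) y 1‖ ^ 2 ∂P) (𝓝[>] 0) (𝓝 (κ - 4)) := by
  have him : Tendsto (fun y => ∫ ω, (height (drive κ X ω) y 1).im ^ 2 ∂P) (𝓝[>] 0) (𝓝 0) := by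
    rw [show (𝓝 (0 : ℝ)) = 𝓝 (∫ _ : Ω, (0 : ℝ) ∂P) by simp]
    refine tendsto_integral_filter_of_dominated_convergence (fun _ => 5)
      (eventually_mem_nhdsWithin.mono fun y hy => ((Complex.measurable_im.comp
        (measurable_height hX hy κ 1)).pow_const 2).aestronglyMeasurable) ?_ (integrable_const _) ?_
    · filter_upwards [Ioo_mem_nhdsGT (show (0 : ℝ) < 1 by norm_num)] with y hy
      refine .of_forall fun ω => ?_
      have h := im_height_sq_le (continuous_drive κ hX ω) hy.1 1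
      rw [Real.norm_of_nonneg (sq_nonneg _)]
      rw [NNReal.coe_one] at h
      nlinarith [hy.1, hy.2]
    · filter_upwards [hr] with ω ⟨x, hx⟩
      simpa [height, Function.comp_def] using ((Complex.continuous_im.tendsto _).comp hx).pow 2
  have hsq : Tendsto (fun y : ℝ => y ^ 2) (𝓝[>] 0) (𝓝 0) := by
    simpa using ((continuous_pow 2).tendsto (0 : ℝ)).mono_left
      (nhdsWithin_le_nhds (s := Ioi (0 : ℝ)))
  have h := (hsq.const_sub (κ - 4)).add (him.const_mul 2)
  simp only [sub_zero, mul_zero, add_zero] at h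
  exact h.congr' (eventually_mem_nhdsWithin.mono fun y hy => (integral_sq hX hκ hy).symm)

lemma tendsto_pw_real {a x : ℝ} (ha : 0 < a) {l : Filter ℝ} {F : ℝ → ℂ}
    (hF : Tendsto F l (𝓝 (x : ℂ))) (him : ∀ᶠ y in l, 0 ≤ (F y).im) :
    Tendsto (fun y => pw a (F y)) l (𝓝 (pw a x)) := by
  have hF' : Tendsto F l (𝓝[{z : ℂ | 0 ≤ z.im}] (x : ℂ)) := tendsto_nhdsWithin_iff.2 ⟨hF, him⟩
  rcases lt_trichotomy x 0 with h | rfl | h
  · have hc : ContinuousWithinAt (fun z : ℂ => exp (log z * a)) {z | 0 ≤ z.im} (x : ℂ) :=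
      ((continuousWithinAt_log_of_re_neg_of_im_zero (by simpa using h) (by simp)).mul
        continuousWithinAt_const).cexp
    have hne : ∀ᶠ y in l, F y ≠ 0 :=
      hF.eventually (isOpen_ne.mem_nhds (ofReal_ne_zero.2 h.ne))
    rw [pw, cpow_def_of_ne_zero (ofReal_ne_zero.2 h.ne)]
    refine (hc.tendsto.comp hF').congr' (hne.mono fun y hy => ?_)
    simp only [Function.comp, pw]
    rw [cpow_def_of_ne_zero hy]
  · have h0 : pw a ((0 : ℝ) : ℂ) = 0 := by
      simp [pw, zero_cpow (ofReal_ne_zero.2 ha.ne')]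
    rw [h0, tendsto_zero_iff_norm_tendsto_zero]
    simp only [norm_pw]
    have := ((Real.continuousAt_rpow_const _ _ (Or.inr ha.le)).tendsto.comp hF.norm)
    simpa [Real.zero_rpow ha.ne', Function.comp_def] using this
  · exact ((hasDerivAt_id (x : ℂ)).cpow_const (c := (a : ℂ))
      (Complex.mem_slitPlane_iff.2 (Or.inl (by simpa using h)))).continuousAt.tendsto.comp hF

lemma pw_ofReal_neg {a x : ℝ} (hx : x < 0) :
    (pw a x).im = |x| ^ a * Real.sin (Real.pi * a) := by
  have hne : (x : ℂ) ≠ 0 := ofReal_ne_zero.2 hx.ne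
  rw [pw, cpow_def_of_ne_zero hne, exp_im]
  simp only [mul_re, mul_im, log_re, log_im, ofReal_re, ofReal_im, mul_zero, sub_zero, zero_add,
    arg_ofReal_of_neg hx, Complex.norm_real, Real.norm_eq_abs]
  rw [Real.rpow_def_of_pos (abs_pos.2 hx.ne)]

lemma pw_ofReal_nonneg {a x : ℝ} (hx : 0 ≤ x) : pw a x = ((x ^ a : ℝ) : ℂ) := by
  rw [pw, ofReal_cpow hx]

/-- For `κ > 4` the moment of order `1 + 4 / κ` forces the real tip to be zero. -/
lemma eq_zero_of_gt (hX : IsNiceBM X P) (hκ : 4 < κ) (hκ8 : κ < 8) {x : Ω → ℝ}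
    (hx : ∀ᵐ ω ∂P, IsTip (drive κ X ω) 1 (x ω)) (hxm : AEStronglyMeasurable x P)
    (hxi : Integrable (fun ω => x ω ^ 2) P) : ∀ᵐ ω ∂P, x ω = 0 := by
  set a := 1 + 4 / κ with ha
  have hκ0 : 0 < κ := by linarith
  have h4 : 1 / 2 < 4 / κ ∧ 4 / κ < 1 :=
    ⟨by rw [div_lt_div_iff₀ two_pos hκ0]; linarith, by rw [div_lt_one hκ0]; linarith⟩
  have ha1 : 3 / 2 < a := by rw [ha]; linarith [h4.1]
  have ha2 : a < 2 := by rw [ha]; linarith [h4.2]
  have hc : coef κ a = 0 := by
    rw [coef, ha]; field_simp; ring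
  have ipw : Integrable (fun ω => pw a (x ω : ℂ)) P := by
    refine ((integrable_const 1).add hxi).mono'
      ((measurable_pw a).comp_aemeasurable
        (Complex.measurable_ofReal.comp_aemeasurable hxm.aemeasurable)).aestronglyMeasurable
      (.of_forall fun ω => ?_)
    rw [norm_pw, Complex.norm_real, Real.norm_eq_abs]
    refine (rpow_le_one_add_sq (abs_nonneg _) (by linarith) ha2.le).trans ?_
    simp [sq_abs]
  have hseq : Tendsto (fun n : ℕ => 1 / ((n : ℝ) + 1)) atTop (𝓝[>] 0) :=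
    tendsto_nhdsWithin_iff.2 ⟨tendsto_one_div_add_atTop_nhds_zero_nat,
      .of_forall fun n => show (0 : ℝ) < 1 / ((n : ℝ) + 1) by positivity⟩
  -- every bounded functional has nonpositive mean at the limit
  have key : ∀ T : ℂ →L[ℝ] ℝ, (∀ z, |T z| ≤ ‖z‖) → T (∫ ω, pw a (x ω : ℂ) ∂P) ≤ 0 := by
    intro T hT
    refine le_of_forall_pos_le_add fun e he => ?_
    set ε := e / κ
    have hε : 0 < ε := by positivity
    set R := ε ^ (a - 2)⁻¹
    have hR : 0 < R := Real.rpow_pos_of_pos hε _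
    set C := R ^ a
    have hbound : ∀ w : ℂ, ‖pw a w‖ ≤ ε * ‖w‖ ^ 2 + C := fun w => by
      rw [norm_pw]
      rcases le_or_gt ‖w‖ R with h | h
      · have := Real.rpow_le_rpow (norm_nonneg w) h (show 0 ≤ a by linarith)
        have : 0 ≤ ε * ‖w‖ ^ 2 := by positivity
        linarith
      · have hw : 0 < ‖w‖ := hR.trans h
        have h1 := Real.rpow_le_rpow_of_nonpos hR h.le (show a - 2 ≤ 0 by linarith)
        rw [show R ^ (a - 2) = ε from Real.rpow_inv_rpow hε.le (by linarith)] at h1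
        have hC0 : 0 ≤ C := Real.rpow_nonneg hR.le a
        rw [show a = (a - 2) + 2 by ring, Real.rpow_add hw, Real.rpow_two]
        nlinarith [mul_le_mul_of_nonneg_right h1 (sq_nonneg ‖w‖)]
    set g : ℕ → Ω → ℝ := fun n ω => ε * ‖height (drive κ X ω) (1 / ((n : ℝ) + 1)) 1‖ ^ 2 + C +
      T (pw a (height (drive κ X ω) (1 / ((n : ℝ) + 1)) 1))
    have hyn : ∀ n : ℕ, (0 : ℝ) < 1 / ((n : ℝ) + 1) := fun n => by positivity
    have i1 : ∀ n : ℕ, Integrable (fun ω => ε * ‖height (drive κ X ω) (1 / ((n : ℝ) + 1)) 1‖ ^ 2 + C) P :=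
      fun n => ((integrable_height_sq hX (hyn n) κ 1).const_mul ε).fun_add (integrable_const C)
    have i2 : ∀ n : ℕ, Integrable (fun ω => pw a (height (drive κ X ω) (1 / ((n : ℝ) + 1)) 1)) P :=
      fun n => integrable_pw_height hX (hyn n) κ ha2.le 1
    have hlim : ∀ᵐ ω ∂P, Tendsto (fun n => g n ω) atTop
        (𝓝 (ε * x ω ^ 2 + C + T (pw a (x ω : ℂ)))) := by
      filter_upwards [hx] with ω hω
      have hu : Tendsto (fun y => height (drive κ X ω) y 1) (𝓝[>] 0) (𝓝 (x ω : ℂ)) := hω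
      have hp := tendsto_pw_real (a := a) (by linarith) hu (eventually_mem_nhdsWithin.mono
        fun y hy => (show (0 : ℝ) ≤ y from le_of_lt hy).trans
          (le_im_height (continuous_drive κ hX ω) hy 1))
      have := (((hu.norm.pow 2).const_mul ε).add_const C).add ((T.continuous.tendsto _).comp hp)
      rw [Complex.norm_real, Real.norm_eq_abs, sq_abs] at this
      exact this.comp hseq
    have hL : Tendsto (fun n => ∫ ω, g n ω ∂P) atTop (𝓝 (ε * (κ - 4) + C)) := by
      have hm : Tendsto (fun y : ℝ => T (pw a ((y : ℂ) * I))) (𝓝[>] 0) (𝓝 0) := by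
        refine squeeze_zero_norm' (a := fun y : ℝ => y ^ a) (eventually_mem_nhdsWithin.mono fun y hy => ?_) ?_
        · rw [Real.norm_eq_abs]
          refine (hT _).trans (le_of_eq ?_)
          rw [norm_pw, norm_mul, Complex.norm_I, mul_one, Complex.norm_real,
            Real.norm_of_nonneg (show (0 : ℝ) ≤ y from le_of_lt hy)]
        · simpa [Real.zero_rpow (show a ≠ 0 by linarith)] using
            (((Real.continuousAt_rpow_const 0 a (Or.inr (by linarith))).tendsto).mono_left
              (nhdsWithin_le_nhds (s := Ioi (0 : ℝ))))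
      have := ((((tendsto_integral_sq hX hκ0.le
        (hx.mono fun ω hω => ⟨x ω, hω⟩)).const_mul ε).add_const C).add hm).comp hseq
      rw [add_zero] at this
      refine this.congr fun n => ?_
      simp only [Function.comp, g]
      rw [integral_add (i1 n) (T.integrable_comp (i2 n)),
        integral_add ((integrable_height_sq hX (hyn n) κ 1).const_mul ε) (integrable_const C),
        integral_const_mul, T.integral_comp_comm (i2 n), integral_const]
      simp only [probReal_univ, one_smul]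
      rw [show ∫ ω, pw a (height (drive κ X ω) (1 / ((n : ℝ) + 1)) 1) ∂P =
        mom P X κ (1 / ((n : ℝ) + 1)) a 1 from rfl,
        mom_one_of_coef_zero hX hκ0.le (hyn n) (by linarith) ha2.le hc]
    obtain ⟨hint, hle⟩ := fatou_real (g := g) (g0 := fun ω => ε * x ω ^ 2 + C + T (pw a (x ω : ℂ)))
      (L := ε * (κ - 4) + C)
      (fun n ω => by
        have h1 := abs_le.1 (hT (pw a (height (drive κ X ω) (1 / ((n : ℝ) + 1)) 1)))
        have h2 := hbound (height (drive κ X ω) (1 / ((n : ℝ) + 1)) 1)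
        simp only [g]
        linarith [h1.1])
      (fun n => (i1 n).fun_add (T.integrable_comp (i2 n))) hlim hL
    have hT' : Integrable (fun ω => T (pw a (x ω : ℂ))) P := T.integrable_comp ipw
    rw [integral_add ((hxi.const_mul ε).fun_add (integrable_const C)) hT',
      integral_add (hxi.const_mul ε) (integrable_const C), integral_const_mul,
      T.integral_comp_comm ipw, integral_const] at hle
    simp only [probReal_univ, one_smul] at hle
    have h0 : 0 ≤ ε * ∫ ω, x ω ^ 2 ∂P := mul_nonneg hε.le (integral_nonneg fun _ => sq_nonneg _)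
    have he' : ε * κ = e := by simp only [ε]; field_simp
    nlinarith
  have hre : (∫ ω, pw a (x ω : ℂ) ∂P).re = 0 := le_antisymm
    (key Complex.reCLM fun z => Complex.abs_re_le_norm z)
    (by simpa using key (-Complex.reCLM) fun z => by simpa using Complex.abs_re_le_norm z)
  have him : (∫ ω, pw a (x ω : ℂ) ∂P).im = 0 := le_antisymm
    (key Complex.imCLM fun z => Complex.abs_im_le_norm z)
    (by simpa using key (-Complex.imCLM) fun z => by simpa using Complex.abs_im_le_norm z)
  have hsin : Real.sin (Real.pi * a) < 0 := by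
    rw [ha, mul_add, mul_one, add_comm Real.pi, Real.sin_add_pi]
    exact neg_neg_of_pos (Real.sin_pos_of_pos_of_lt_pi (by have := h4.1; positivity)
      (mul_lt_of_lt_one_right Real.pi_pos h4.2))
  have hzero : ∀ᵐ ω ∂P, 0 ≤ x ω := by
    have hnp : ∀ ω, 0 ≤ -(pw a (x ω : ℂ)).im := fun ω => by
      rcases lt_or_ge (x ω) 0 with h | h
      · rw [pw_ofReal_neg h]
        nlinarith [Real.rpow_nonneg (abs_nonneg (x ω)) a]
      · simp [pw_ofReal_nonneg h]
    have hi0 : ∫ ω, -(pw a (x ω : ℂ)).im ∂P = 0 := by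
      rw [integral_neg, show (fun ω => (pw a (x ω : ℂ)).im) =
        fun ω => Complex.imCLM (pw a (x ω : ℂ)) from rfl, Complex.imCLM.integral_comp_comm ipw,
        Complex.imCLM_apply, him, neg_zero]
    filter_upwards [(integral_eq_zero_iff_of_nonneg hnp ipw.im.neg).1 hi0] with ω hω
    by_contra hneg
    have h := pw_ofReal_neg (a := a) (not_le.1 hneg)
    simp only [Pi.zero_apply, neg_eq_zero] at hω
    rw [hω] at h
    have := Real.rpow_pos_of_pos (abs_pos.2 (not_le.1 hneg).ne) a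
    nlinarith
  have hi0 : ∫ ω, (pw a (x ω : ℂ)).re ∂P = 0 := by
    rw [show (fun ω => (pw a (x ω : ℂ)).re) = fun ω => Complex.reCLM (pw a (x ω : ℂ)) from rfl,
      Complex.reCLM.integral_comp_comm ipw, Complex.reCLM_apply, hre]
  have hae : ∀ᵐ ω ∂P, 0 ≤ (pw a (x ω : ℂ)).re := hzero.mono fun ω hω => by
    rw [pw_ofReal_nonneg hω, ofReal_re]; exact Real.rpow_nonneg hω a
  filter_upwards [hzero, (integral_eq_zero_iff_of_nonneg_ae hae ipw.re).1 hi0] with ω hω h0
  simp only [Pi.zero_apply] at h0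
  change (pw a (x ω : ℂ)).re = 0 at h0
  rw [pw_ofReal_nonneg hω, ofReal_re, Real.rpow_eq_zero hω (by linarith)] at h0
  exact h0

/-- A real tip is zero. -/
lemma tendsto_zero_of_realTip (hX : IsNiceBM X P) (hκ : 0 < κ) (hκ8 : κ < 8)
    (hr : RealTip P X κ) : ∀ᵐ ω ∂P, IsTip (drive κ X ω) 1 0 := by
  classical
  set x : Ω → ℝ := fun ω => (limUnder (𝓝[>] (0 : ℝ)) fun y => height (drive κ X ω) y 1).re
  have hx : ∀ᵐ ω ∂P, IsTip (drive κ X ω) 1 (x ω) := hr.mono fun ω ⟨r, hω⟩ => by
    have : x ω = r := by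
      simp only [x]
      rw [Tendsto.limUnder_eq (show Tendsto (fun y => height (drive κ X ω) y 1) (𝓝[>] 0) (𝓝 (r : ℂ))
        from hω), ofReal_re]
    rwa [this]
  have hyn : ∀ n : ℕ, (0 : ℝ) < 1 / ((n : ℝ) + 1) := fun n => by positivity
  have hseq : Tendsto (fun n : ℕ => 1 / ((n : ℝ) + 1)) atTop (𝓝[>] 0) :=
    tendsto_nhdsWithin_iff.2 ⟨tendsto_one_div_add_atTop_nhds_zero_nat, .of_forall hyn⟩
  have hlim : ∀ᵐ ω ∂P, Tendsto (fun n : ℕ => height (drive κ X ω) (1 / ((n : ℝ) + 1)) 1) atTop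
      (𝓝 (x ω : ℂ)) := hx.mono fun ω hω =>
    (show Tendsto (fun y => height (drive κ X ω) y 1) (𝓝[>] 0) (𝓝 (x ω : ℂ)) from hω).comp hseq
  have hxm : AEStronglyMeasurable x P :=
    aestronglyMeasurable_of_tendsto_ae atTop (fun n => (Complex.measurable_re.comp
      (measurable_height hX (hyn n) κ 1)).aestronglyMeasurable)
      (hlim.mono fun ω hω => by simpa [Function.comp_def] using (Complex.continuous_re.tendsto _).comp hω)
  obtain ⟨hxi, hle⟩ := fatou_real
    (g := fun n ω => ‖height (drive κ X ω) (1 / ((n : ℝ) + 1)) 1‖ ^ 2)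
    (g0 := fun ω => x ω ^ 2) (fun n ω => sq_nonneg _)
    (fun n => integrable_height_sq hX (hyn n) κ 1)
    (hlim.mono fun ω hω => by simpa [sq_abs] using hω.norm.pow 2)
    ((tendsto_integral_sq hX hκ.le hr).comp hseq)
  have h0 : ∀ᵐ ω ∂P, x ω = 0 := by
    rcases le_or_gt κ 4 with h | h
    · have hz : ∫ ω, x ω ^ 2 ∂P = 0 :=
        le_antisymm (by linarith) (integral_nonneg fun _ => sq_nonneg _)
      filter_upwards [(integral_eq_zero_iff_of_nonneg (fun ω => sq_nonneg (x ω)) hxi).1 hz]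
        with ω hω
      simpa using hω
    · exact eq_zero_of_gt hX h hκ8 hx hxm hxi
  filter_upwards [hx, h0] with ω hω hz
  rw [hz] at hω
  simpa using hω

/-! ### The tip is not always real -/

/-- The functional `re - im`, at least the norm on powers of order `-1/2`. -/
lemma norm_le_re_sub_im {w : ℂ} (hw : 0 < w.im) :
    ‖pw (-1 / 2) w‖ ≤ (pw (-1 / 2) w).re - (pw (-1 / 2) w).im := by
  have hne : w ≠ 0 := fun e => by simp [e] at hw
  have h0 := arg_nonneg_iff.2 hw.le
  have h1 := arg_le_pi w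
  rw [pw, cpow_def_of_ne_zero hne, exp_re, exp_im, Complex.norm_exp]
  simp only [mul_re, mul_im, log_re, log_im, ofReal_re, ofReal_im, mul_zero, sub_zero, zero_add]
  rw [← mul_sub]
  refine le_mul_of_one_le_right (Real.exp_pos _).le ?_
  rw [show w.arg * (-1 / 2 : ℝ) = -(w.arg / 2) by ring, Real.cos_neg, Real.sin_neg, sub_neg_eq_add]
  have hc := Real.cos_nonneg_of_mem_Icc (x := w.arg / 2) ⟨by linarith [Real.pi_pos], by linarith⟩
  have hs := Real.sin_nonneg_of_nonneg_of_le_pi (x := w.arg / 2) (by linarith)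
    (by linarith [Real.pi_pos])
  nlinarith [Real.sin_sq_add_cos_sq (w.arg / 2), Real.cos_le_one (w.arg / 2),
    Real.sin_le_one (w.arg / 2)]

lemma integral_re_sub_im (hX : IsNiceBM X P) (hy : 0 < y) (hp : p ≤ 2) (u : ℝ≥0) :
    (mom P X κ y p u).re - (mom P X κ y p u).im =
      ∫ ω, ((pw p (height (drive κ X ω) y u)).re - (pw p (height (drive κ X ω) y u)).im) ∂P := by
  have h := (Complex.reCLM - Complex.imCLM).integral_comp_comm
    (integrable_pw_height hX hy κ hp u)
  simpa [mom] using h.symm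

/-- If the tip at time one is zero, the negative moment blows up. -/
lemma eventually_large (hX : IsNiceBM X P) (h0 : ∀ᵐ ω ∂P, IsTip (drive κ X ω) 1 0) (M : ℝ) :
    ∀ᶠ y in 𝓝[>] 0, M ≤ (mom P X κ y (-1 / 2) 1).re - (mom P X κ y (-1 / 2) 1).im := by
  set c := 2 * (|M| + 1)
  set η := c⁻¹ ^ 2
  have hc : 0 < c := by positivity
  have hη : 0 < η := by positivity
  set q : ℂ → ℝ := fun w => max 0 (c * (1 - ‖w‖ / η))
  have hq : Continuous q := by fun_prop
  have hlim : Tendsto (fun y => ∫ ω, q (height (drive κ X ω) y 1) ∂P) (𝓝[>] 0) (𝓝 c) := by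
    rw [show (𝓝 c) = 𝓝 (∫ _ : Ω, c ∂P) by simp]
    refine tendsto_integral_filter_of_dominated_convergence (fun _ => c)
      (eventually_mem_nhdsWithin.mono fun y hy =>
        (hq.measurable.comp (measurable_height hX hy κ 1)).aestronglyMeasurable)
      (.of_forall fun y => .of_forall fun ω => ?_) (integrable_const _) ?_
    · rw [Real.norm_of_nonneg (le_max_left _ _)]
      refine max_le hc.le (mul_le_of_le_one_right hc.le ?_)
      have : 0 ≤ ‖height (drive κ X ω) y 1‖ / η := by positivity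
      linarith
    · filter_upwards [h0] with ω hω
      simpa [q, hc.le, Function.comp_def] using (hq.tendsto 0).comp
        (show Tendsto (fun y => height (drive κ X ω) y 1) (𝓝[>] 0) (𝓝 0) from hω)
  filter_upwards [hlim.eventually_const_le (show c / 2 < c by linarith), self_mem_nhdsWithin]
    with y hy hy0
  have hy0' : 0 < y := hy0
  have hM : M ≤ c / 2 := by simp only [c]; linarith [le_abs_self M]
  refine (hM.trans hy).trans ?_
  rw [integral_re_sub_im hX hy0' (by norm_num)]
  have i := integrable_pw_height hX hy0' κ (show (-1 / 2 : ℝ) ≤ 2 by norm_num) 1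
  refine integral_mono_of_nonneg (.of_forall fun ω => le_max_left _ _) (i.re.sub' i.im)
    (.of_forall fun ω => ?_)
  have him := hy0'.trans_le (le_im_height (continuous_drive κ hX ω) hy0' 1)
  refine le_trans ?_ (norm_le_re_sub_im him)
  rw [norm_pw]
  set r := ‖height (drive κ X ω) y 1‖
  have hr : 0 < r := norm_pos_iff.2 fun e => by simp [e] at him
  refine max_le (Real.rpow_nonneg hr.le _) ?_
  rcases le_or_gt η r with h | h
  · have : 1 - r / η ≤ 0 := by
      have := (one_le_div hη).2 h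
      linarith
    exact (mul_nonpos_of_nonneg_of_nonpos hc.le this).trans (Real.rpow_nonneg hr.le _)
  · refine (mul_le_of_le_one_right hc.le (by have : 0 ≤ r / η := by positivity
                                             linarith)).trans ?_
    refine le_trans (le_of_eq ?_) (Real.rpow_le_rpow_of_nonpos hr h.le (by norm_num))
    rw [show η = (c⁻¹) ^ ((2 : ℕ) : ℝ) from (Real.rpow_natCast _ _).symm, ← Real.rpow_mul (by positivity)]
    norm_num [Real.rpow_neg_one]

/-- The tip at time one is, with positive probability, off the real line. -/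
theorem not_realTip (hX : IsNiceBM X P) (hκ : 0 < κ) (hκ8 : κ < 8) : ¬ RealTip P X κ := by
  intro hr
  have h0 := tendsto_zero_of_realTip hX hκ hκ8 hr
  set k := -coef κ (3 / 2) with hk
  have hk0 : 0 < k := by rw [hk, coef]; nlinarith
  set M := 4 * (2 * (κ + 7)) / k + 1
  have hM : 0 < M := by positivity
  obtain ⟨η, hη, hη'⟩ := mem_nhdsGT_iff_exists_Ioo_subset.1 (eventually_large hX h0 M)
  have hη0 : 0 < η := hη
  set y := min (1 / 4) (η / 4)
  have hy : 0 < y := lt_min (by norm_num) (by positivity)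
  -- the bounds at time `u` in `[1/2, 1]`
  have hu : ∀ u ∈ Icc (1 / 2 : ℝ) 1,
      |(mom P X κ y (3 / 2) u.toNNReal).re - (mom P X κ y (3 / 2) u.toNNReal).im| ≤ 2 * (κ + 7) ∧
      M ≤ (mom P X κ y (-1 / 2) u.toNNReal).re - (mom P X κ y (-1 / 2) u.toNNReal).im := by
    intro u hu
    have hu0 : 0 < u := by linarith [hu.1]
    have hu' : u.toNNReal ≠ 0 := (Real.toNNReal_pos.2 hu0).ne'
    have hs0 : 0 < √u := Real.sqrt_pos.2 hu0
    have hs1 : √u ≤ 1 := Real.sqrt_le_one.2 hu.2
    have hs2 : 1 / 2 ≤ √u := Real.le_sqrt_of_sq_le (by linarith [hu.1])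
    have hy' : y / √u ≤ 2 * y := (div_le_iff₀ hs0).2 (by nlinarith)
    have hy0 : 0 < y / √u := div_pos hy hs0
    rw [mom_scale hX hy _ hu', mom_scale hX hy _ hu', Real.coe_toNNReal u hu0.le]
    simp only [re_ofReal_mul, im_ofReal_mul, ← mul_sub]
    refine ⟨?_, ?_⟩
    · rw [abs_mul, abs_of_nonneg (Real.rpow_nonneg hs0.le _)]
      refine (mul_le_of_le_one_left (abs_nonneg _) (Real.rpow_le_one hs0.le hs1 (by norm_num))).trans ?_
      refine (abs_sub _ _).trans ?_
      have hn : ‖mom P X κ (y / √u) (3 / 2) 1‖ ≤ κ + 7 := by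
        have i := integrable_height_sq hX hy0 κ 1
        refine (norm_integral_le_integral_norm _).trans ((integral_mono_of_nonneg
          (.of_forall fun _ => norm_nonneg _) ((integrable_const 1).fun_add i)
          (.of_forall fun ω => ?_)).trans ?_)
        · simp only [norm_pw]
          exact rpow_le_one_add_sq (norm_nonneg _) (by norm_num) (by norm_num)
        · rw [integral_add (integrable_const 1) i, integral_const, probReal_univ, one_smul]
          have := integral_sq_le hX hκ.le hy0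
          have : y / √u ≤ 1 := hy'.trans (by linarith [min_le_left (1 / 4 : ℝ) (η / 4)])
          nlinarith
      linarith [(Complex.abs_re_le_norm (mom P X κ (y / √u) (3 / 2) 1)).trans hn,
        (Complex.abs_im_le_norm (mom P X κ (y / √u) (3 / 2) 1)).trans hn]
    · have hm := hη' (show y / √u ∈ Ioo 0 η from
        ⟨hy0, hy'.trans_lt (by linarith [min_le_right (1 / 4 : ℝ) (η / 4)])⟩)
      simp only [mem_ofPred_eq] at hm
      exact hm.trans (le_mul_of_one_le_left (hM.le.trans hm)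
        (Real.one_le_rpow_of_pos_of_le_one_of_nonpos hs0 hs1 (by norm_num)))
  -- the mean value inequality
  set T : ℂ →L[ℝ] ℝ := Complex.reCLM - Complex.imCLM
  have hmv := image_le_of_deriv_right_le_deriv_boundary
    (f := fun x : ℝ => T (mom P X κ y (3 / 2) x.toNNReal))
    (f' := fun x : ℝ => T ((coef κ (3 / 2) : ℂ) * mom P X κ y (-1 / 2) x.toNNReal))
    (B := fun x : ℝ => 2 * (κ + 7) - k * M * (x - 1 / 2)) (B' := fun _ => -(k * M))
    (a := 1 / 2) (b := 1) ?_ (fun x hx => ?_) ?_ (by fun_prop) (fun x hx => ?_) (fun x hx => ?_)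
    (right_mem_Icc.2 (by norm_num))
  · have h1 := (abs_le.1 (hu 1 (right_mem_Icc.2 (by norm_num))).1).1
    simp only [T, FunLike.coe_sub, Pi.sub_apply, reCLM_apply, imCLM_apply] at hmv
    have : k * M = 4 * (2 * (κ + 7)) + k := by simp only [M]; field_simp
    linarith
  · exact T.continuous.comp_continuousOn
      ((continuousOn_mom hX hκ.le hy (by norm_num) (by norm_num)).mono
        fun x hx => show (0 : ℝ) ≤ x by linarith [hx.1])
  · have h := hasDeriv_mom hX hκ.le hy (b := 3 / 2) (by norm_num) (by norm_num)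
      (show 0 ≤ x by linarith [hx.1])
    rw [show (3 / 2 - 2 : ℝ) = -1 / 2 by norm_num] at h
    exact T.hasFDerivAt.comp_hasDerivWithinAt x h
  · have := (abs_le.1 (hu (1 / 2) (left_mem_Icc.2 (by norm_num))).1).2
    simpa [T] using this
  · refine ((((hasDerivAt_id x).sub_const (1 / 2)).const_mul (k * M)).const_sub
      (2 * (κ + 7))).hasDerivWithinAt.congr_deriv ?_
    simp
  · have h := (hu x (Ico_subset_Icc_self hx)).2
    simp only [T, FunLike.coe_sub, Pi.sub_apply, reCLM_apply, imCLM_apply,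
      re_ofReal_mul, im_ofReal_mul]
    rw [← mul_sub, show coef κ (3 / 2) = -k by rw [hk, neg_neg]]
    nlinarith

end Vale.Agent.P164
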