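import Vale.Agent.P164.Tips
import Vale.Agent.P164.Law

/-!
P164: every deterministic gauge treats all segments of the SLE trace alike, almost surely.
-/

open Set Filter Metric MeasureTheory ProbabilityTheory Complex
open scoped NNReal ENNReal Topology

namespace Vale.Agent.P164

/-- `γ` is the trace of the Loewner chain driven by `U`: a continuous curve with
`γ t = lim_{y → 0+} g_t⁻¹ (U t + i y)`. -/
def IsTrace (U : ℝ≥0 → ℝ) (γ : ℝ≥0 → ℂ) : Prop :=
  Continuous γ ∧ ∀ t, IsTip U t (γ t)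

variable {h : ℝ → ℝ} {U : ℝ≥0 → ℝ}

/-- Closed segment of the chain, from the tips. -/
def seg (U : ℝ≥0 → ℝ) (s t : ℝ≥0) : Set ℂ := closure (tips U s t)

/-- The part at height at least `l`. -/
def level (U : ℝ≥0 → ℝ) (s t : ℝ≥0) (l : ℝ) : Set ℂ := seg U s t ∩ {z | l ≤ z.im}

lemma seg_mono {s s' t t' : ℝ≥0} (hs : s' ≤ s) (ht : t ≤ t') : seg U s t ⊆ seg U s' t' :=
  closure_mono fun _ ⟨q, h1, h2, h3⟩ => ⟨q, hs.trans h1, h2.trans ht, h3⟩

lemma exists_nnrat_btwn {a b : ℝ≥0} (h : a < b) :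
    ∃ q : ℚ≥0, a < (q : ℝ≥0) ∧ (q : ℝ≥0) < b := by
  obtain ⟨r, hr1, hr2⟩ := exists_rat_btwn (show (a : ℝ) < b by exact_mod_cast h)
  have hr0 : (0 : ℚ) ≤ r := by
    have : (0 : ℝ) ≤ r := a.2.trans hr1.le
    exact_mod_cast this
  have he : (((r.toNNRat : ℚ≥0) : ℝ≥0) : ℝ) = (r : ℝ) := by
    conv_rhs => rw [← Rat.coe_toNNRat r hr0]
    norm_cast
  exact ⟨r.toNNRat, by rw [← NNReal.coe_lt_coe, he]; exact hr1,
    by rw [← NNReal.coe_lt_coe, he]; exact hr2⟩

lemma IsTrace.seg_eq {γ : ℝ≥0 → ℂ} (hγ : IsTrace U γ) {s t : ℝ≥0} (hst : s < t) :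
    seg U s t = γ '' Icc s t := by
  refine Subset.antisymm (closure_minimal ?_ (isCompact_Icc.image hγ.1).isClosed) ?_
  · rintro z ⟨q, h1, h2, h3⟩
    exact ⟨q, ⟨h1, h2⟩, tendsto_nhds_unique (hγ.2 q) h3⟩
  · have hD : Icc s t ⊆ closure ({x | ∃ q : ℚ≥0, (q : ℝ≥0) = x} ∩ Icc s t) := by
      refine (closure_Ioo hst.ne).ge.trans ?_
      refine closure_minimal (fun x hx => mem_closure_iff.2 fun O hO hxO => ?_) isClosed_closure
      have hne : (𝓝[>] x).NeBot := nhdsGT_neBot_of_exists_gt ⟨x + 1, lt_add_one x⟩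
      obtain ⟨a, ha, hsub⟩ := (mem_nhdsGE_iff_exists_Ico_subset' (lt_add_one x)).1
        (nhdsWithin_le_nhds ((hO.inter isOpen_Ioo).mem_nhds ⟨hxO, hx⟩))
      obtain ⟨q, hq1, hq2⟩ := exists_nnrat_btwn (show x < a from ha)
      obtain ⟨h1, h2⟩ := hsub ⟨hq1.le, hq2⟩
      exact ⟨q, h1, ⟨q, rfl⟩, Ioo_subset_Icc_self h2⟩
    refine (image_mono hD).trans ((image_closure_subset_closure_image hγ.1).trans
      (closure_mono ?_))
    rintro _ ⟨x, ⟨⟨q, rfl⟩, h1, h2⟩, rfl⟩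
    exact ⟨q, h1, h2, hγ.2 q⟩

lemma seg_im_nonneg (hU : Continuous U) {s t : ℝ≥0} {z : ℂ} (hz : z ∈ seg U s t) : 0 ≤ z.im :=
  (isClosed_le continuous_const Complex.continuous_im).closure_subset_iff.2
    (fun _ hw => tips_im_nonneg hU hw) hz

/-! ### The three predicates -/

/-- A finite initial segment. -/
def Fin0 (h : ℝ → ℝ) (U : ℝ≥0 → ℝ) (t : ℝ≥0) : Prop := gaugeMeasure h (seg U 0 t) < ∞

/-- An initial segment null in the open half-plane. -/
def Null0 (h : ℝ → ℝ) (U : ℝ≥0 → ℝ) (t : ℝ≥0) : Prop :=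
  ∀ l : ℝ, 0 < l → gaugeMeasure h (level U 0 t l) = 0

/-- An initial segment locally finite in the open half-plane. -/
def LocFin0 (h : ℝ → ℝ) (U : ℝ≥0 → ℝ) (t : ℝ≥0) : Prop :=
  ∀ l : ℝ, 0 < l → gaugeMeasure h (level U 0 t l) < ∞

/-- What the zero-one argument needs of a predicate. -/
structure Regular (Q : (ℝ≥0 → ℝ) → ℝ≥0 → Prop) : Prop where
  event : ∀ t, ∃ S : Set (Past t), MeasurableSet S ∧
    ∀ U, Continuous U → (Q U t ↔ pastOf t U ∈ S)
  anti : ∀ U s t, s ≤ t → Q U t → Q U s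
  scale : ∀ U, Continuous U → ∀ r : ℚ≥0, 0 < r → ∀ t,
    (Q (fun u => (√((r : ℝ≥0) : ℝ))⁻¹ * U ((r : ℝ≥0) * u)) t ↔ Q U ((r : ℝ≥0) * t))

lemma exists_nat_of_ne_top {x : ℝ≥0∞} (hx : x < ∞) : ∃ C : ℕ, x ≤ (C : ℝ≥0∞) :=
  (ENNReal.exists_nat_gt hx.ne).imp fun _ h => h.le

lemma level_antitone {s t : ℝ≥0} {l l' : ℝ} (hl : l' ≤ l) : level U s t l ⊆ level U s t l' :=
  fun _ hz => ⟨hz.1, le_trans hl hz.2⟩

lemma isTip_scale_iff (hU : Continuous U) {r : ℚ≥0} (hr : 0 < r) (q : ℝ≥0) (z : ℂ) :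
    IsTip (fun u => (√((r : ℝ≥0) : ℝ))⁻¹ * U ((r : ℝ≥0) * u)) q
        (((√((r : ℝ≥0) : ℝ))⁻¹ : ℝ) * z) ↔ IsTip U ((r : ℝ≥0) * q) z := by
  set R : ℝ := ((r : ℝ≥0) : ℝ)
  have hR : 0 < R := by
    show (0 : ℝ) < ((r : ℝ≥0) : ℝ)
    exact_mod_cast hr
  set a : ℝ := (√R)⁻¹ with ha
  have ha0 : 0 < a := by positivity
  have ha2 : a ^ 2 = R⁻¹ := by rw [ha, inv_pow, Real.sq_sqrt hR.le]
  have hV : pathExt (fun u => a * U ((r : ℝ≥0) * u)) = fun u => a * pathExt U (u / a ^ 2) := by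
    funext u
    simp only [pathExt]
    congr 2
    rw [ha2, div_inv_eq_mul, mul_comm u, Real.toNNReal_mul hR.le, Real.toNNReal_coe]
  have hflow : ∀ y : ℝ, 0 < y →
      flow (pathExt fun u => a * U ((r : ℝ≥0) * u)) q
        (((a * U ((r : ℝ≥0) * q) : ℝ) : ℂ) + ((a * y : ℝ) : ℂ) * I) =
      (a : ℂ) * flow (pathExt U) (((r : ℝ≥0) * q : ℝ≥0) : ℝ)
        ((U ((r : ℝ≥0) * q) : ℂ) + (y : ℂ) * I) := by
    intro y hy
    rw [hV, ← flow_scale (continuous_pathExt hU) (NNReal.coe_nonneg _)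
      (by rw [point_im]; exact hy) ha0]
    congr 1
    · rw [ha2, NNReal.coe_mul, ← mul_assoc]
      show (q : ℝ) = R⁻¹ * R * q
      rw [inv_mul_cancel₀ hR.ne', one_mul]
    · push_cast; ring
  have hmul : ∀ c : ℝ, 0 < c → Tendsto (fun y : ℝ => c * y) (𝓝[>] 0) (𝓝[>] 0) := fun c hc =>
    tendsto_nhdsWithin_iff.2 ⟨by
      simpa using ((continuous_const_mul c).tendsto (0 : ℝ)).mono_left nhdsWithin_le_nhds,
      eventually_mem_nhdsWithin.mono fun y hy => mul_pos hc hy⟩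
  unfold IsTip
  constructor
  · intro hz
    have := (hz.comp (hmul a ha0)).const_mul (a : ℂ)⁻¹
    rw [← mul_assoc, inv_mul_cancel₀ (ofReal_ne_zero.2 ha0.ne'), one_mul] at this
    refine this.congr' (eventually_mem_nhdsWithin.mono fun y hy => ?_)
    simp only [Function.comp]
    rw [hflow y hy, ← mul_assoc, inv_mul_cancel₀ (ofReal_ne_zero.2 ha0.ne'), one_mul]
  · intro hz
    refine ((hz.comp (hmul a⁻¹ (inv_pos.2 ha0))).const_mul (a : ℂ)).congr'
      (eventually_mem_nhdsWithin.mono fun y hy => ?_)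
    simp only [Function.comp]
    rw [← hflow (a⁻¹ * y) (mul_pos (inv_pos.2 ha0) hy), mul_inv_cancel_left₀ ha0.ne']

lemma seg_scale (hU : Continuous U) {r : ℚ≥0} (hr : 0 < r) (s t : ℝ≥0) :
    seg (fun u => (√((r : ℝ≥0) : ℝ))⁻¹ * U ((r : ℝ≥0) * u)) s t =
      (fun z : ℂ => (((√((r : ℝ≥0) : ℝ))⁻¹ : ℝ) : ℂ) * z) '' seg U ((r : ℝ≥0) * s) ((r : ℝ≥0) * t) := by
  have hr' : (0 : ℝ≥0) < (r : ℝ≥0) := by exact_mod_cast hr
  have ha : (((√((r : ℝ≥0) : ℝ))⁻¹ : ℝ) : ℂ) ≠ 0 := by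
    rw [Ne, ofReal_eq_zero, inv_eq_zero, Real.sqrt_eq_zero (NNReal.coe_nonneg _)]
    exact_mod_cast hr'.ne'
  rw [seg, seg, show (fun z : ℂ => (((√((r : ℝ≥0) : ℝ))⁻¹ : ℝ) : ℂ) * z) =
    ⇑(Homeomorph.mulLeft₀ _ ha) from rfl, Homeomorph.image_closure]
  congr 1
  ext z
  simp only [Homeomorph.coe_mulLeft₀, mem_image, tips, mem_ofPred_eq]
  constructor
  · rintro ⟨q, hsq, hqt, hq⟩
    refine ⟨((((√((r : ℝ≥0) : ℝ))⁻¹ : ℝ) : ℂ))⁻¹ * z, ⟨r * q, ?_, ?_, ?_⟩, ?_⟩
    · push_cast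
      gcongr
    · push_cast
      gcongr
    · push_cast
      have := (isTip_scale_iff hU hr (q : ℝ≥0)
        (((((√((r : ℝ≥0) : ℝ))⁻¹ : ℝ) : ℂ))⁻¹ * z)).1 (by rwa [mul_inv_cancel_left₀ ha])
      exact_mod_cast this
    · exact mul_inv_cancel_left₀ ha z
  · rintro ⟨w, ⟨q, hsq, hqt, hq⟩, rfl⟩
    refine ⟨q / r, ?_, ?_, ?_⟩
    · push_cast
      rw [le_div_iff₀ hr', mul_comm]
      exact hsq
    · push_cast
      rw [div_le_iff₀ hr', mul_comm]
      exact hqt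
    · refine (isTip_scale_iff hU hr _ w).2 ?_
      push_cast
      rwa [mul_div_cancel₀ _ hr'.ne']

/-- Multiplication by a nonzero number changes a gauge measure by bounded factors. -/
lemma mul_image_bounds (hh : IsGauge h) {a : ℝ} (ha : a ≠ 0) (E : Set ℂ) :
    ∃ N : ℕ, gaugeMeasure h ((fun z : ℂ => (a : ℂ) * z) '' E) ≤ N * gaugeMeasure h E ∧
      gaugeMeasure h E ≤ N * gaugeMeasure h ((fun z : ℂ => (a : ℂ) * z) '' E) := by
  set L : ℝ≥0 := max ‖(a : ℂ)‖₊ ‖(a : ℂ)‖₊⁻¹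
  refine ⟨(⌈4 * L⌉₊ + 1) ^ 2, gaugeMeasure_image_le hh ?_, gaugeMeasure_le_image hh ?_⟩
  · refine LipschitzOnWith.of_dist_le_mul fun x _ y _ => ?_
    rw [dist_eq_norm, dist_eq_norm, ← mul_sub, norm_mul]
    gcongr
    exact NNReal.coe_le_coe.2 (le_max_left ‖(a : ℂ)‖₊ ‖(a : ℂ)‖₊⁻¹)
  · intro x _ y _
    rw [dist_eq_norm, dist_eq_norm, ← mul_sub, norm_mul, ← mul_assoc]
    refine le_mul_of_one_le_left (norm_nonneg _) ?_
    have hpos : 0 < ‖(a : ℂ)‖ := norm_pos_iff.2 (ofReal_ne_zero.2 ha)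
    calc (1 : ℝ) = ‖(a : ℂ)‖⁻¹ * ‖(a : ℂ)‖ := (inv_mul_cancel₀ hpos.ne').symm
      _ ≤ _ := by
        gcongr
        rw [← coe_nnnorm, ← NNReal.coe_inv]
        exact NNReal.coe_le_coe.2 (le_max_right ‖(a : ℂ)‖₊ ‖(a : ℂ)‖₊⁻¹)

lemma gaugeMeasure_scale (hh : IsGauge h) (hU : Continuous U) {r : ℚ≥0} (hr : 0 < r) (t : ℝ≥0)
    (l : ℝ) :
    ∃ N : ℕ,
      (gaugeMeasure h (level (fun u => (√((r : ℝ≥0) : ℝ))⁻¹ * U ((r : ℝ≥0) * u)) 0 t l) ≤
        N * gaugeMeasure h (level U 0 ((r : ℝ≥0) * t) (√((r : ℝ≥0) : ℝ) * l))) ∧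
      gaugeMeasure h (level U 0 ((r : ℝ≥0) * t) (√((r : ℝ≥0) : ℝ) * l)) ≤
        N * gaugeMeasure h (level (fun u => (√((r : ℝ≥0) : ℝ))⁻¹ * U ((r : ℝ≥0) * u)) 0 t l) := by
  have hs : 0 < √((r : ℝ≥0) : ℝ) := Real.sqrt_pos.2 (by exact_mod_cast hr)
  set a : ℝ := (√((r : ℝ≥0) : ℝ))⁻¹ with ha
  have he : level (fun u => a * U ((r : ℝ≥0) * u)) 0 t l =
      (fun z : ℂ => (a : ℂ) * z) '' level U 0 ((r : ℝ≥0) * t) (√((r : ℝ≥0) : ℝ) * l) := by
    rw [level, ha, seg_scale hU hr, mul_zero, level]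
    ext z
    constructor
    · rintro ⟨⟨w, hw, rfl⟩, hz⟩
      refine ⟨w, ⟨hw, ?_⟩, rfl⟩
      simp only [mem_ofPred_eq, Complex.im_ofReal_mul] at hz ⊢
      rwa [inv_mul_eq_div, le_div_iff₀ hs, mul_comm] at hz
    · rintro ⟨w, ⟨hw, hwl⟩, rfl⟩
      refine ⟨⟨w, hw, rfl⟩, ?_⟩
      simp only [mem_ofPred_eq, Complex.im_ofReal_mul] at hwl ⊢
      rwa [inv_mul_eq_div, le_div_iff₀ hs, mul_comm]
  rw [he]
  exact mul_image_bounds hh (inv_ne_zero hs.ne') _

lemma regular_null (hh : IsGauge h) : Regular (Null0 h) := by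
  refine ⟨fun t => ⟨{w | ∀ m : ℕ, CoverEvent h 0 (1 / ((m : ℝ) + 1)) 0 t w}, ?_, fun U hU => ?_⟩,
    fun U s t hst hQ l hl => measure_mono_null (inter_subset_inter_left _ (seg_mono le_rfl hst))
      (hQ l hl), fun U hU r hr t => ?_⟩
  · rw [ofPred_forall]
    exact MeasurableSet.iInter fun m => measurableSet_coverEvent h 0 _ 0 t
  · simp only [mem_ofPred_eq, coverEvent_iff hh ENNReal.zero_ne_top _ hU, nonpos_iff_eq_zero]
    refine ⟨fun H m => H _ (by positivity), fun H l hl => ?_⟩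
    obtain ⟨m, hm⟩ := exists_nat_one_div_lt hl
    exact measure_mono_null (level_antitone hm.le) (H m)
  · have hs : 0 < √((r : ℝ≥0) : ℝ) := Real.sqrt_pos.2 (by exact_mod_cast hr)
    refine ⟨fun H l hl => ?_, fun H l hl => ?_⟩
    · obtain ⟨N, -, h2⟩ := gaugeMeasure_scale hh hU hr t (l / √((r : ℝ≥0) : ℝ))
      rw [mul_div_cancel₀ _ hs.ne', H _ (div_pos hl hs), mul_zero] at h2
      exact nonpos_iff_eq_zero.1 h2
    · obtain ⟨N, h1, -⟩ := gaugeMeasure_scale hh hU hr t l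
      rw [H _ (mul_pos hs hl), mul_zero] at h1
      exact nonpos_iff_eq_zero.1 h1

lemma regular_locFin (hh : IsGauge h) : Regular (LocFin0 h) := by
  refine ⟨fun t => ⟨{w | ∀ m : ℕ, ∃ C : ℕ, CoverEvent h C (1 / ((m : ℝ) + 1)) 0 t w}, ?_,
    fun U hU => ?_⟩,
    fun U s t hst hQ l hl => (measure_mono (inter_subset_inter_left _ (seg_mono le_rfl hst))).trans_lt
      (hQ l hl), fun U hU r hr t => ?_⟩
  · simp only [ofPred_forall, ofPred_exists]
    exact MeasurableSet.iInter fun m => MeasurableSet.iUnion fun C =>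
      measurableSet_coverEvent h _ _ 0 t
  · simp only [mem_ofPred_eq, coverEvent_iff hh (ENNReal.natCast_ne_top _) _ hU]
    refine ⟨fun H m => exists_nat_of_ne_top (H _ (by positivity)), fun H l hl => ?_⟩
    obtain ⟨m, hm⟩ := exists_nat_one_div_lt hl
    obtain ⟨C, hC⟩ := H m
    exact ((measure_mono (level_antitone hm.le)).trans hC).trans_lt (ENNReal.natCast_lt_top C)
  · have hs : 0 < √((r : ℝ≥0) : ℝ) := Real.sqrt_pos.2 (by exact_mod_cast hr)
    refine ⟨fun H l hl => ?_, fun H l hl => ?_⟩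
    · obtain ⟨N, -, h2⟩ := gaugeMeasure_scale hh hU hr t (l / √((r : ℝ≥0) : ℝ))
      rw [mul_div_cancel₀ _ hs.ne'] at h2
      exact h2.trans_lt (ENNReal.mul_lt_top (ENNReal.natCast_lt_top N) (H _ (div_pos hl hs)))
    · obtain ⟨N, h1, -⟩ := gaugeMeasure_scale hh hU hr t l
      exact h1.trans_lt (ENNReal.mul_lt_top (ENNReal.natCast_lt_top N) (H _ (mul_pos hs hl)))

lemma regular_fin (hh : IsGauge h) : Regular (Fin0 h) := by
  refine ⟨fun t => ⟨{w | ∃ C : ℕ, CoverEvent h C (-1) 0 t w}, ?_, fun U hU => ?_⟩,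
    fun U s t hst hQ => (measure_mono (seg_mono le_rfl hst)).trans_lt hQ, fun U hU r hr t => ?_⟩
  · rw [ofPred_exists]
    exact MeasurableSet.iUnion fun C => measurableSet_coverEvent h _ _ 0 t
  · simp only [mem_ofPred_eq, coverEvent_iff hh (ENNReal.natCast_ne_top _) _ hU]
    have : closure (tips U 0 t) ∩ {z | (-1 : ℝ) ≤ z.im} = seg U 0 t :=
      inter_eq_left.2 fun z hz => show (-1 : ℝ) ≤ z.im by linarith [seg_im_nonneg hU hz]
    rw [this]
    exact ⟨exists_nat_of_ne_top, fun ⟨C, hC⟩ => hC.trans_lt (ENNReal.natCast_lt_top C)⟩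
  · have ha : (√((r : ℝ≥0) : ℝ))⁻¹ ≠ 0 :=
      inv_ne_zero (Real.sqrt_pos.2 (by exact_mod_cast hr : (0 : ℝ) < ((r : ℝ≥0) : ℝ))).ne'
    unfold Fin0
    rw [seg_scale hU hr, mul_zero]
    obtain ⟨N, h1, h2⟩ := mul_image_bounds hh ha (seg U 0 ((r : ℝ≥0) * t))
    exact ⟨fun H => h2.trans_lt (ENNReal.mul_lt_top (ENNReal.natCast_lt_top N) H),
      fun H => h1.trans_lt (ENNReal.mul_lt_top (ENNReal.natCast_lt_top N) H)⟩

/-! ### The zero-one law along the path -/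

variable {Ω : Type*} [MeasurableSpace Ω] {P : Measure Ω} [IsProbabilityMeasure P]
  {X Y : ℝ≥0 → Ω → ℝ}

/-- The driving path of `X` at speed `κ`. -/
noncomputable def drive (κ : ℝ) (X : ℝ≥0 → Ω → ℝ) (ω : Ω) : ℝ≥0 → ℝ := fun u => √κ * X u ω

omit [IsProbabilityMeasure P] in
lemma continuous_drive (κ : ℝ) (hX : IsNiceBM X P) (ω : Ω) : Continuous (drive κ X ω) :=
  continuous_const.mul (hX.cont ω)

variable {κ : ℝ} {Q : (ℝ≥0 → ℝ) → ℝ≥0 → Prop}

omit [IsProbabilityMeasure P] in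
lemma event_eq (hQ : Regular Q) (P : Measure Ω) (κ : ℝ) (t : ℝ≥0) :
    ∃ S : Set (ℝ≥0 → ℝ), MeasurableSet S ∧
      ∀ Y : ℝ≥0 → Ω → ℝ, IsNiceBM Y P →
        {ω | Q (drive κ Y ω) t} = {ω | (Y · ω) ∈ S} := by
  obtain ⟨S, hS, hSe⟩ := hQ.event t
  refine ⟨(fun W => pastOf t fun u => √κ * W u) ⁻¹' S,
    (measurable_pi_lambda _ fun u => (measurable_pi_apply _).const_mul _) hS, fun Y hY => ?_⟩
  ext ω
  exact hSe _ (continuous_drive κ hY ω)

omit [IsProbabilityMeasure P] in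
lemma measurableSet_event (hQ : Regular Q) (hX : IsNiceBM X P) (κ : ℝ) (t : ℝ≥0) :
    MeasurableSet {ω | Q (drive κ X ω) t} := by
  obtain ⟨S, hS, hSe⟩ := event_eq hQ P κ t
  rw [hSe X hX]
  exact hX.measurable_path hS

lemma prob_event_eq (hQ : Regular Q) (hX : IsNiceBM X P) (hY : IsNiceBM Y P) (κ : ℝ) (t : ℝ≥0) :
    P {ω | Q (drive κ X ω) t} = P {ω | Q (drive κ Y ω) t} := by
  obtain ⟨S, hS, hSe⟩ := event_eq hQ P κ t
  rw [hSe X hX, hSe Y hY]
  exact hX.prob_eq hY hS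

lemma prob_event_scale (hQ : Regular Q) (hX : IsNiceBM X P) (κ : ℝ) {r : ℚ≥0} (hr : 0 < r) :
    P {ω | Q (drive κ X ω) r} = P {ω | Q (drive κ X ω) 1} := by
  rw [prob_event_eq hQ hX (hX.scale (c := (r : ℝ≥0)) (by exact_mod_cast hr.ne')) κ 1]
  congr 1
  ext ω
  have := hQ.scale (drive κ X ω) (continuous_drive κ hX ω) r hr 1
  rw [mul_one] at this
  refine this.symm.trans (iff_of_eq (congrArg (fun V => Q V 1) ?_))
  funext u
  simp only [drive]
  ring

/-- Either almost surely always, or almost surely never. -/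
theorem dichotomy (hQ : Regular Q) (hX : IsNiceBM X P) (κ : ℝ) :
    (∀ Y : ℝ≥0 → Ω → ℝ, IsNiceBM Y P → ∀ᵐ ω ∂P, ∀ t, Q (drive κ Y ω) t) ∨
      (∀ Y : ℝ≥0 → Ω → ℝ, IsNiceBM Y P → ∀ᵐ ω ∂P, ∀ t, 0 < t → ¬ Q (drive κ Y ω) t) := by
  set t : ℕ → ℝ≥0 := fun n => 1 / ((n : ℝ≥0) + 1) with ht
  have htanti : Antitone t := fun m n hmn => by
    simp only [ht]
    exact one_div_le_one_div_of_le (by positivity) (by gcongr)
  set E : ℕ → Set Ω := fun n => {ω | Q (drive κ X ω) (t n)}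
  have hmono : Monotone E := fun m n hmn ω hω => hQ.anti _ _ _ (htanti hmn) hω
  have hrat : ∀ n, (t n) = (((1 / ((n : ℚ≥0) + 1) : ℚ≥0)) : ℝ≥0) := fun n => by
    simp [ht]
  have hconst : ∀ n, P (E n) = P {ω | Q (drive κ X ω) 1} := fun n => by
    show P {ω | Q (drive κ X ω) (t n)} = _
    rw [hrat n]
    exact prob_event_scale hQ hX κ (by positivity)
  have hU : P (⋃ n, E n) = P {ω | Q (drive κ X ω) 1} := by
    rw [hmono.measure_iUnion]
    simp only [hconst, ciSup_const]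
  have hzo : P (⋃ n, E n) = 0 ∨ P (⋃ n, E n) = 1 := by
    refine hX.zero_one fun ε hε => ?_
    obtain ⟨N, hN⟩ := exists_nat_one_div_lt (show (0 : ℝ) < ε by exact_mod_cast hε)
    choose S hS hSe using fun n => hQ.event (t (n + N))
    refine ⟨t N, by positivity, ?_, ⋃ n,
      (fun w : Iic (t N) → ℝ => fun u : Iic (t (n + N)) =>
        √κ * w ⟨u, u.2.trans (htanti (Nat.le_add_left N n))⟩) ⁻¹' S n,
      MeasurableSet.iUnion fun n =>
        (measurable_pi_lambda _ fun u => (measurable_pi_apply _).const_mul _) (hS n), ?_⟩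
    · rw [← NNReal.coe_le_coe]
      simpa [ht] using hN.le
    · rw [← hmono.iUnion_nat_add N]
      ext ω
      simp only [mem_iUnion, mem_ofPred_eq, mem_preimage]
      exact exists_congr fun n => hSe n _ (continuous_drive κ hX ω)
  rw [hU] at hzo
  rcases hzo with h0 | h1
  · refine Or.inr fun Y hY => ?_
    have hall : ∀ᵐ ω ∂P, ∀ n, ¬ Q (drive κ Y ω) (t n) := ae_all_iff.2 fun n => by
      have : P {ω | Q (drive κ Y ω) (t n)} = 0 := by
        rw [← prob_event_eq hQ hX hY κ (t n)]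
        exact (hconst n).trans h0
      rw [ae_iff]
      simpa using this
    filter_upwards [hall] with ω hω s hs hQs
    obtain ⟨n, hn⟩ := exists_nat_one_div_lt (show (0 : ℝ) < s by exact_mod_cast hs)
    refine hω n (hQ.anti _ _ _ ?_ hQs)
    rw [← NNReal.coe_le_coe]
    simpa [ht] using hn.le
  · refine Or.inl fun Y hY => ?_
    have hall : ∀ᵐ ω ∂P, ∀ n : ℕ, Q (drive κ Y ω) ((n : ℝ≥0) + 1) := ae_all_iff.2 fun n => by
      have : P {ω | Q (drive κ Y ω) ((n : ℝ≥0) + 1)} = 1 := by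
        rw [show ((n : ℝ≥0) + 1) = (((n : ℚ≥0) + 1 : ℚ≥0) : ℝ≥0) by push_cast; rfl,
          prob_event_scale hQ hY κ (by positivity), prob_event_eq hQ hY hX κ 1]
        exact h1
      exact (mem_ae_iff_prob_eq_one (measurableSet_event hQ hY κ _)).2 this
    filter_upwards [hall] with ω hω s
    obtain ⟨n, hn⟩ := exists_nat_ge (s : ℝ)
    refine hQ.anti _ _ _ ?_ (hω n)
    rw [← NNReal.coe_le_coe]
    push_cast
    linarith

/-! ### From initial segments to all segments -/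

/-- A shifted tip gives a tip of the original chain. -/
lemma isTip_shift (hU : Continuous U) {s q : ℝ≥0} {z : ℂ}
    (hz : IsTip (fun u => U (s + u) - U s) q z) (hzi : 0 < z.im) :
    IsTip U (s + q) (flow (pathExt U) s (z + (U s : ℂ))) := by
  set V := pathExt U
  have hV : Continuous V := continuous_pathExt hU
  set V' : ℝ → ℝ := fun r => V ((s : ℝ) + r)
  have hV' : Continuous V' := by fun_prop
  have hUs : Continuous fun u => U (s + u) - U s := by fun_prop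
  have hlim : Tendsto (fun y : ℝ => flow V' q ((U (s + q) : ℂ) + (y : ℂ) * I)) (𝓝[>] 0)
      (𝓝 (z + (U s : ℂ))) := by
    refine (hz.add_const (U s : ℂ)).congr' (eventually_mem_nhdsWithin.mono fun y hy => ?_)
    have htr := flow_translate (w := (U (s + q) : ℂ) + (y : ℂ) * I) hV'
      (NNReal.coe_nonneg q) (by rw [point_im]; exact hy) (U s)
    rw [eq_comm, ← sub_eq_iff_eq_add, ← htr]
    refine (flow_congr (hV'.sub continuous_const) (continuous_pathExt hUs) (NNReal.coe_nonneg q)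
      (by simpa using hy) fun r hr => ?_).trans ?_
    swap
    · congr 1
      push_cast; ring
    · simp only [V', V, pathExt, Pi.sub_apply]
      rw [Real.toNNReal_add (NNReal.coe_nonneg s) hr.1, Real.toNNReal_coe]
  have him : 0 < (z + (U s : ℂ)).im := by simpa using hzi
  have hcont : ContinuousAt (flow V s) (z + (U s : ℂ)) := by
    set y := (z + (U s : ℂ)).im / 2
    have hy : 0 < y := by positivity
    have hlip : LipschitzOnWith ⟨Real.exp (2 / y ^ 2 * s), (Real.exp_pos _).le⟩ (flow V s)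
        {w | y < w.im} := LipschitzOnWith.of_dist_le_mul fun a ha b hb =>
      dist_flow_le hV hy (NNReal.coe_nonneg s) (le_of_lt ha) (le_of_lt hb)
    exact hlip.continuousOn.continuousAt ((isOpen_lt continuous_const Complex.continuous_im).mem_nhds
      (show y < _ by simp only [y]; linarith))
  refine (hcont.tendsto.comp hlim).congr' (eventually_mem_nhdsWithin.mono fun y hy => ?_)
  show flow V s (flow V' q _) = flow V ((s + q : ℝ≥0) : ℝ) _
  rw [NNReal.coe_add, add_comm (s : ℝ), flow_add hV (NNReal.coe_nonneg s) (NNReal.coe_nonneg q)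
    (by rw [point_im]; exact hy)]

/-- A piece of the shifted chain, carried into the original one. -/
lemma level_shift (hh : IsGauge h) (hU : Continuous U) (s : ℚ≥0) (u : ℝ≥0) {l : ℝ} (hl : 0 < l) :
    ∃ N : ℕ, gaugeMeasure h (level (fun v => U ((s : ℝ≥0) + v) - U s) 0 u l) ≤
      N * gaugeMeasure h (level U s ((s : ℝ≥0) + u) l) := by
  set V := pathExt U
  set sR : ℝ := ((s : ℝ≥0) : ℝ)
  have hV : Continuous V := continuous_pathExt hU
  set f : ℂ → ℂ := fun z => flow V sR (z + (U s : ℂ)) with hf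
  set y : ℝ := l / 2 with hy
  have hy0 : 0 < y := by positivity
  set L : ℝ≥0 := ⟨Real.exp (2 / y ^ 2 * sR), (Real.exp_pos _).le⟩
  have hlip : LipschitzOnWith L f {z | y < z.im} := LipschitzOnWith.of_dist_le_mul fun a ha b hb => by
    refine (dist_flow_le hV hy0 (NNReal.coe_nonneg _)
      (by simpa using le_of_lt ha) (by simpa using le_of_lt hb)).trans ?_
    rw [dist_add_right]
    exact le_rfl
  set Us : ℝ≥0 → ℝ := fun v => U ((s : ℝ≥0) + v) - U s
  have hmaps : f '' level Us 0 u l ⊆ level U s ((s : ℝ≥0) + u) l := by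
    rintro _ ⟨z, ⟨hz, hzl⟩, rfl⟩
    change l ≤ z.im at hzl
    refine ⟨?_, ?_⟩
    · have hopen : IsOpen {z : ℂ | y < z.im} := isOpen_lt continuous_const Complex.continuous_im
      have hzy : y < z.im := by rw [hy]; linarith
      have hmem : z ∈ closure (tips Us 0 u ∩ {z | y < z.im}) := by
        rw [inter_comm]
        exact hopen.inter_closure ⟨hzy, hz⟩
      have hc : ContinuousWithinAt f (tips Us 0 u ∩ {z | y < z.im}) z :=
        ((hlip.continuousOn.continuousAt (hopen.mem_nhds hzy)).continuousWithinAt)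
      refine closure_mono ?_ (hc.mem_closure_image hmem)
      rintro _ ⟨w, ⟨⟨q, -, hq, htip⟩, hw⟩, rfl⟩
      refine ⟨s + q, by push_cast; exact le_self_add, by push_cast; gcongr, ?_⟩
      push_cast
      exact isTip_shift hU htip (hy0.trans hw)
    · show l ≤ (flow V sR (z + (U s : ℂ))).im
      refine le_trans ?_ (flow_im_ge hV (NNReal.coe_nonneg _) ?_) <;> simp <;> linarith
  refine ⟨_, (gaugeMeasure_le_image hh (L := L) (f := f) fun a ha b hb => ?_).trans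
    (mul_le_mul_of_nonneg_left (measure_mono hmaps) zero_le)⟩
  have ha' : l ≤ a.im := ha.2
  have hb' : l ≤ b.im := hb.2
  have := dist_le_flow hV hy0 (NNReal.coe_nonneg (s : ℝ≥0)) (w := a + (U s : ℂ))
    (w' := b + (U s : ℂ)) (by simp; linarith) (by simp; linarith)
  rw [dist_add_right] at this
  exact this

omit [IsProbabilityMeasure P] in
/-- All shifted chains at once. -/
lemma ae_shift (hX : IsNiceBM X P) {p : (ℝ≥0 → ℝ) → Prop}
    (hp : ∀ Y : ℝ≥0 → Ω → ℝ, IsNiceBM Y P → ∀ᵐ ω ∂P, p (drive κ Y ω)) :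
    ∀ᵐ ω ∂P, ∀ s : ℚ≥0, p (fun v => drive κ X ω ((s : ℝ≥0) + v) - drive κ X ω s) :=
  ae_all_iff.2 fun s => (hp _ (hX.shift s)).mono fun ω hω => by
    convert hω using 1
    funext v
    simp only [drive]
    ring

lemma exists_shift_point {s t : ℝ≥0} (hst : s < t) :
    ∃ q : ℚ≥0, ∃ u : ℝ≥0, 0 < u ∧ s ≤ (q : ℝ≥0) ∧ (q : ℝ≥0) + u = t := by
  obtain ⟨q, h1, h2⟩ := exists_nnrat_btwn hst
  exact ⟨q, t - q, tsub_pos_of_lt h2, h1.le, add_tsub_cancel_of_le h2.le⟩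

/-- Every gauge is of one of three kinds in the open half-plane, and initial segments are either
all finite or all infinite. -/
theorem trichotomy {B : ℝ≥0 → Ω → ℝ} (hB : IsBrownianReal B P) (κ : ℝ) {γ : Ω → ℝ≥0 → ℂ}
    (hγ : ∀ᵐ ω ∂P, IsTrace (fun t => √κ * B t ω) (γ ω)) (hh : IsGauge h) :
    ((∀ᵐ ω ∂P, ∀ s t : ℝ≥0, s < t →
        gaugeMeasure h (γ ω '' Icc s t ∩ {z | 0 < z.im}) = 0) ∨
      (∀ᵐ ω ∂P, ∀ s t : ℝ≥0, s < t → ∃ l : ℝ, 0 < l ∧
        gaugeMeasure h (γ ω '' Icc s t ∩ {z | l ≤ z.im}) = ∞) ∨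
      (∀ᵐ ω ∂P, ∀ s t : ℝ≥0, s < t →
        0 < gaugeMeasure h (γ ω '' Icc s t ∩ {z | 0 < z.im}) ∧
        ∀ l : ℝ, 0 < l → gaugeMeasure h (γ ω '' Icc s t ∩ {z | l ≤ z.im}) < ∞)) ∧
    ((∀ᵐ ω ∂P, ∀ s t : ℝ≥0, s < t → gaugeMeasure h (γ ω '' Icc s t) < ∞) ∨
      (∀ᵐ ω ∂P, ∀ t : ℝ≥0, 0 < t → gaugeMeasure h (γ ω '' Icc 0 t) = ∞)) := by
  obtain ⟨X, hX, hXB⟩ := exists_nice hB
  have htr : ∀ᵐ ω ∂P, ∀ s t : ℝ≥0, s < t → seg (drive κ X ω) s t = γ ω '' Icc s t := by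
    filter_upwards [hγ, hXB] with ω h1 h2 s t hst
    have he : (fun t => √κ * B t ω) = drive κ X ω := funext fun u => by simp [drive, h2 u]
    exact (he ▸ h1).seg_eq hst
  refine ⟨?_, ?_⟩
  · rcases dichotomy (regular_null hh) hX κ with hnull | hpos
    · left
      filter_upwards [htr, hnull X hX] with ω he hω s t hst
      have hsub : γ ω '' Icc s t ∩ {z | 0 < z.im} ⊆
          ⋃ m : ℕ, level (drive κ X ω) 0 t (1 / ((m : ℝ) + 1)) := by
        rintro z ⟨hz, hzi⟩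
        have hzi' : 0 < z.im := hzi
        obtain ⟨m, hm⟩ := exists_nat_one_div_lt hzi'
        exact mem_iUnion.2 ⟨m, seg_mono zero_le le_rfl (he s t hst ▸ hz), hm.le⟩
      exact measure_mono_null hsub (measure_iUnion_null fun m => hω t _ (by positivity))
    · rcases dichotomy (regular_locFin hh) hX κ with hfin | hinf
      · right; right
        filter_upwards [htr, hfin X hX, ae_shift hX (p := fun U => ∀ t, 0 < t → ¬ Null0 h U t) hpos]
          with ω he hω hsh s t hst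
        refine ⟨?_, fun l hl => ?_⟩
        · obtain ⟨q, u, hu, hsq, hqu⟩ := exists_shift_point hst
          have := hsh q u hu
          simp only [Null0, not_forall] at this
          obtain ⟨l, hl, hne⟩ := this
          obtain ⟨N, hN⟩ := level_shift hh (continuous_drive κ hX ω) q u hl
          rw [hqu] at hN
          have hne' : gaugeMeasure h (level (drive κ X ω) q t l) ≠ 0 := fun h0 => hne (by
            rw [h0, mul_zero] at hN; exact nonpos_iff_eq_zero.1 hN)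
          refine (pos_iff_ne_zero.2 hne').trans_le (measure_mono ?_)
          rw [← he s t hst]
          exact fun z hz => ⟨seg_mono hsq le_rfl hz.1, hl.trans_le hz.2⟩
        · rw [← he s t hst]
          exact (measure_mono (inter_subset_inter_left _ (seg_mono zero_le le_rfl))).trans_lt
            (hω t l hl)
      · right; left
        filter_upwards [htr, ae_shift hX (p := fun U => ∀ t, 0 < t → ¬ LocFin0 h U t) hinf]
          with ω he hsh s t hst
        obtain ⟨q, u, hu, hsq, hqu⟩ := exists_shift_point hst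
        have := hsh q u hu
        simp only [LocFin0, not_forall] at this
        obtain ⟨l, hl, htop⟩ := this
        obtain ⟨N, hN⟩ := level_shift hh (continuous_drive κ hX ω) q u hl
        rw [hqu] at hN
        refine ⟨l, hl, ?_⟩
        rw [← he s t hst]
        refine top_unique (le_trans ?_ (measure_mono
          (inter_subset_inter_left _ (seg_mono hsq le_rfl))))
        by_contra hlt
        exact htop (hN.trans_lt (ENNReal.mul_lt_top (ENNReal.natCast_lt_top N) (not_le.1 hlt)))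
  · rcases dichotomy (regular_fin hh) hX κ with hfin | hinf
    · left
      filter_upwards [htr, hfin X hX] with ω he hω s t hst
      rw [← he s t hst]
      exact (measure_mono (seg_mono zero_le le_rfl)).trans_lt (hω t)
    · right
      filter_upwards [htr, hinf X hX] with ω he hω t ht
      rw [← he 0 t ht]
      exact not_lt_top_iff.1 (hω t ht)

/-- Positive probability for one segment gives almost surely every segment. -/
theorem every_segment_of_one {B : ℝ≥0 → Ω → ℝ} (hB : IsBrownianReal B P) (κ : ℝ)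
    {γ : Ω → ℝ≥0 → ℂ} (hγ : ∀ᵐ ω ∂P, IsTrace (fun t => √κ * B t ω) (γ ω)) (hh : IsGauge h)
    {a : ℝ≥0} (ha : 0 < a)
    (hpos : 0 < P {ω | 0 < gaugeMeasure h (γ ω '' Icc 0 a ∩ {z | 0 < z.im}) ∧
      gaugeMeasure h (γ ω '' Icc 0 a) < ∞}) :
    ∀ᵐ ω ∂P, ∀ s t : ℝ≥0, s < t →
      0 < gaugeMeasure h (γ ω '' Icc s t) ∧ gaugeMeasure h (γ ω '' Icc s t) < ∞ := by
  obtain ⟨h1, h2⟩ := trichotomy hB κ hγ hh
  have no : ∀ p : Ω → Prop, (∀ᵐ ω ∂P, p ω) →
      (∀ ω, p ω → ¬(0 < gaugeMeasure h (γ ω '' Icc 0 a ∩ {z | 0 < z.im}) ∧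
        gaugeMeasure h (γ ω '' Icc 0 a) < ∞)) → False := fun p hp himp => by
    refine hpos.ne' (measure_mono_null (fun ω hω => ?_) (ae_iff.1 hp))
    exact fun hpω => himp ω hpω hω
  rcases h2 with h2 | h2
  swap
  · exact (no _ h2 fun ω hω hc => hc.2.ne (hω a ha)).elim
  rcases h1 with h1 | h1 | h1
  · exact (no _ h1 fun ω hω hc => hc.1.ne' (hω 0 a ha)).elim
  · refine (no _ h1 fun ω hω hc => ?_).elim
    obtain ⟨l, -, hl⟩ := hω 0 a ha
    exact hc.2.ne (top_unique (hl.ge.trans (measure_mono inter_subset_left)))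
  · filter_upwards [h1, h2] with ω h1 h2 s t hst
    exact ⟨(h1 s t hst).1.trans_le (measure_mono inter_subset_left), h2 s t hst⟩

end Vale.Agent.P164
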