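import Vale.Agent.P164.Main

/-!
P164: the point `g_u⁻¹(U u + i y)` seen from the past: bounds, Markov property and scaling.
-/

open Set Filter Metric MeasureTheory ProbabilityTheory Complex
open scoped NNReal ENNReal Topology

namespace Vale.Agent.P164

/-- The point above the driving value pulled back to time `0`. -/
noncomputable def height (U : ℝ≥0 → ℝ) (y : ℝ) (u : ℝ≥0) : ℂ :=
  flow (pathExt U) u ((U u : ℂ) + (y : ℂ) * I)

variable {U : ℝ≥0 → ℝ} {y : ℝ}

lemma le_im_height (hU : Continuous U) (hy : 0 < y) (u : ℝ≥0) : y ≤ (height U y u).im := by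
  have := flow_im_ge (continuous_pathExt hU) (NNReal.coe_nonneg u)
    (show 0 < ((U u : ℂ) + (y : ℂ) * I).im by rw [point_im]; exact hy)
  rwa [point_im] at this

lemma height_zero (hy : 0 < y) : height U y 0 = (U 0 : ℂ) + (y : ℂ) * I := by
  have hw : 0 < ((U 0 : ℂ) + (y : ℂ) * I).im := by rw [point_im]; exact hy
  refine flow_eq hw le_rfl ⟨fun _ => (U 0 : ℂ) + (y : ℂ) * I, rfl, rfl, fun u _ => ⟨hw, ?_⟩⟩
  have h0 : (Icc (0 : ℝ) ((0 : ℝ≥0) : ℝ)).Subsingleton := by simp
  exact hasDerivWithinAt_iff_hasFDerivWithinAt.2 (HasFDerivWithinAt.of_subsingleton h0)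

lemma im_height_sq_le (hU : Continuous U) (hy : 0 < y) (u : ℝ≥0) :
    (height U y u).im ^ 2 ≤ y ^ 2 + 4 * u := by
  obtain ⟨M, hM⟩ := (isCompact_Icc (a := (0 : ℝ)) (b := u)).exists_bound_of_continuousOn
    (continuous_pathExt hU).continuousOn
  have := (flow_mem_box (continuous_pathExt hU) (NNReal.coe_nonneg u)
    (w := (U u : ℂ) + (y : ℂ) * I) (by rw [point_im]; exact hy) hM
    (by rw [point_re, ← pathExt_coe U]; exact hM _ ⟨NNReal.coe_nonneg _, le_rfl⟩)).2
  rwa [point_im] at this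

/-- The speed is at most `2 / y`. -/
lemma norm_flow_sub_le {V : ℝ → ℝ} {t : ℝ} {w : ℂ} (hV : Continuous V) (ht : 0 ≤ t) (hy : 0 < y)
    (hw : y ≤ w.im) : ‖flow V t w - w‖ ≤ 2 / y * t := by
  obtain ⟨h, h0, h1, hh⟩ := isFlow_flow hV ht (hy.trans_le hw)
  have := norm_image_sub_le_of_norm_deriv_le_segment' (f := h)
    (fun r hr => (hh r hr).2) (C := 2 / y) (fun r hr => ?_) t ⟨ht, le_rfl⟩
  · rwa [h0, h1, sub_zero] at this
  · have him := (h0 ▸ hw : y ≤ (h 0).im).trans (im_monotone hh r (Ico_subset_Icc_self hr))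
    have := norm_field_le (y := y) (v := V (t - r)) (z := h r) hy
    rwa [field, clamp_of_le him] at this

lemma norm_height_le (hU : Continuous U) (hy : 0 < y) (u : ℝ≥0) :
    ‖height U y u‖ ≤ |U u| + y + 2 / y * u := by
  have h := norm_flow_sub_le (continuous_pathExt hU) (NNReal.coe_nonneg u) hy
    (w := (U u : ℂ) + (y : ℂ) * I) (by rw [point_im])
  have h2 : ‖(U u : ℂ) + (y : ℂ) * I‖ ≤ |U u| + y := by
    refine (norm_add_le _ _).trans (le_of_eq ?_)
    rw [Complex.norm_real, norm_mul, Complex.norm_I, mul_one, Complex.norm_real, Real.norm_eq_abs,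
      Real.norm_eq_abs, abs_of_pos hy]
  have := norm_le_norm_add_norm_sub' (height U y u) ((U u : ℂ) + (y : ℂ) * I)
  unfold height at *
  linarith

/-- The first-order error of one step. -/
noncomputable def stepErr (V : ℝ → ℝ) (δ : ℝ) (w : ℂ) : ℝ :=
  ‖flow V δ w - w + 2 * (δ : ℂ) / w‖ / δ

lemma stepErr_le {V : ℝ → ℝ} {δ M : ℝ} {w : ℂ} (hV : Continuous V) (hδ : 0 < δ) (hy : 0 < y)
    (hw : y ≤ w.im) (hM : ∀ r ∈ Icc (0 : ℝ) δ, |V r| ≤ M) :
    stepErr V δ w ≤ 4 / y ∧ stepErr V δ w ≤ 2 / y ^ 2 * (2 / y * δ + M) := by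
  obtain ⟨h, h0, h1, hh⟩ := isFlow_flow hV hδ.le (hy.trans_le hw)
  have hfield : ∀ r ∈ Icc (0 : ℝ) δ,
      -2 / (h r - (V (δ - r) : ℂ)) = field y (V (δ - r)) (h r) := fun r hr => by
    rw [field, clamp_of_le ((h0 ▸ hw : y ≤ (h 0).im).trans (im_monotone hh r hr))]
  have hf0 : field y 0 w = -2 / w := by simp [field, clamp_of_le hw]
  have hder : ∀ r ∈ Icc (0 : ℝ) δ, HasDerivWithinAt (fun r => h r + (r : ℂ) * (2 / w))
      (field y (V (δ - r)) (h r) - field y 0 w) (Icc 0 δ) r := fun r hr => by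
    refine ((hh r hr).2.add
      (((hasDerivWithinAt_id r (Icc 0 δ)).ofReal_comp).mul_const (2 / w))).congr_deriv ?_
    rw [hfield r hr, hf0]
    push_cast
    ring
  have hdist : ∀ r ∈ Icc (0 : ℝ) δ, ‖h r - w‖ ≤ 2 / y * δ := fun r hr => by
    have := norm_image_sub_le_of_norm_deriv_le_segment' (f := h) (fun r hr => (hh r hr).2)
      (C := 2 / y) (fun r hr => hfield r (Ico_subset_Icc_self hr) ▸ norm_field_le hy) r hr
    rw [h0, sub_zero] at this
    refine this.trans ?_
    gcongr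
    exact hr.2
  have conclude : ∀ C : ℝ,
      (∀ r ∈ Icc (0 : ℝ) δ, ‖field y (V (δ - r)) (h r) - field y 0 w‖ ≤ C) →
      stepErr V δ w ≤ C := fun C hC => by
    have := norm_image_sub_le_of_norm_deriv_le_segment' hder
      (fun r hr => hC r (Ico_subset_Icc_self hr)) δ ⟨hδ.le, le_rfl⟩
    rw [h0, h1, sub_zero] at this
    rw [stepErr, div_le_iff₀ hδ]
    refine le_of_eq_of_le (congrArg _ ?_) this
    simp
    ring
  refine ⟨conclude _ fun r _ => ?_, conclude _ fun r hr => ?_⟩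
  · refine (norm_sub_le _ _).trans ((add_le_add (norm_field_le hy) (norm_field_le hy)).trans_eq ?_)
    ring
  · refine (norm_field_sub_le hy).trans ?_
    gcongr
    · exact hdist r hr
    · rw [sub_zero]
      exact hM _ ⟨by linarith [hr.2], by linarith [hr.1]⟩

/-- The error of one step tends to zero, whatever the starting point. -/
lemma tendsto_stepErr {V : ℝ → ℝ} (hV : Continuous V) (hV0 : V 0 = 0) (hy : 0 < y)
    (w : ℝ → ℂ) (hw : ∀ δ, 0 < δ → y ≤ (w δ).im) :
    Tendsto (fun δ => stepErr V δ (w δ)) (𝓝[>] 0) (𝓝 0) := by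
  rw [Metric.tendsto_nhds]
  intro ε hε
  obtain ⟨η, hη, hη'⟩ := Metric.continuousAt_iff.1 (hV.continuousAt (x := 0)) (ε * y ^ 2 / 8)
    (by positivity)
  filter_upwards [Ioo_mem_nhdsGT (lt_min hη (show 0 < ε * y ^ 3 / 16 by positivity))]
    with δ hδ
  obtain ⟨hδη, hδε⟩ := lt_min_iff.1 hδ.2
  have hb := (stepErr_le (M := ε * y ^ 2 / 8) hV hδ.1 hy (hw δ hδ.1) fun r hr => by
    have := hη' (x := r) (by rw [Real.dist_eq, sub_zero, abs_of_nonneg hr.1]; linarith [hr.2])
    rw [Real.dist_eq, hV0, sub_zero] at this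
    exact this.le).2
  rw [Real.dist_eq, sub_zero, abs_of_nonneg (show 0 ≤ stepErr V δ (w δ) from div_nonneg (norm_nonneg _) hδ.1.le)]
  refine lt_of_le_of_lt hb ?_
  have h1 : 2 / y * δ < ε * y ^ 2 / 8 := by
    rw [div_mul_eq_mul_div, div_lt_iff₀ hy]; nlinarith [hδ.1]
  calc 2 / y ^ 2 * (2 / y * δ + ε * y ^ 2 / 8) ≤ 2 / y ^ 2 * (ε * y ^ 2 / 4) := by
        refine mul_le_mul_of_nonneg_left ?_ (by positivity)
        linarith
    _ = ε / 2 := by field_simp; ring
    _ < ε := by linarith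

/-- The Markov property, path by path. -/
lemma height_add (hU : Continuous U) (hy : 0 < y) (s q : ℝ≥0) :
    height U y (s + q) =
      flow (pathExt U) s (height (fun v => U (s + v) - U s) y q + (U s : ℂ)) := by
  have hV : Continuous (pathExt U) := continuous_pathExt hU
  set V' : ℝ → ℝ := fun r => pathExt U ((s : ℝ) + r)
  have hV' : Continuous V' := by fun_prop
  have hUs : Continuous fun v => U (s + v) - U s := by fun_prop
  have hw : 0 < ((U (s + q) : ℂ) + (y : ℂ) * I).im := by rw [point_im]; exact hy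
  have hmid : height (fun v => U (s + v) - U s) y q + (U s : ℂ) =
      flow V' q ((U (s + q) : ℂ) + (y : ℂ) * I) := by
    have htr := flow_translate hV' (NNReal.coe_nonneg q) hw (U s)
    rw [← eq_sub_iff_add_eq, ← htr]
    refine (flow_congr (V' := fun r => V' r - U s) (continuous_pathExt hUs) (by fun_prop)
      (NNReal.coe_nonneg q) (by rw [point_im]; exact hy) fun r hr => ?_).trans ?_
    · simp only [V', pathExt]
      rw [Real.toNNReal_add (NNReal.coe_nonneg s) hr.1, Real.toNNReal_coe]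
    · congr 1
      push_cast; ring
  rw [hmid, height, NNReal.coe_add, add_comm (s : ℝ),
    flow_add hV (NNReal.coe_nonneg s) (NNReal.coe_nonneg q) hw]

/-- Scaling. -/
lemma height_scale (hU : Continuous U) (hy : 0 < y) {c : ℝ≥0} (hc : c ≠ 0) :
    height U y c = (√(c : ℝ) : ℂ) *
      height (fun v => (√(c : ℝ))⁻¹ * U (c * v)) (y / √(c : ℝ)) 1 := by
  set a : ℝ := √(c : ℝ) with ha
  have ha0 : 0 < a := Real.sqrt_pos.2 (by exact_mod_cast pos_iff_ne_zero.2 hc)
  have hU' : Continuous fun v => a⁻¹ * U (c * v) := by fun_prop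
  have hw : 0 < (((a⁻¹ * U (c * 1) : ℝ) : ℂ) + ((y / a : ℝ) : ℂ) * I).im := by
    rw [point_im]; positivity
  unfold height
  rw [← flow_scale (continuous_pathExt hU') (NNReal.coe_nonneg 1) hw ha0]
  have ha2 : a ^ 2 = c := Real.sq_sqrt (NNReal.coe_nonneg c)
  congr 1
  · funext r
    simp only [pathExt]
    rw [ha2, Real.toNNReal_div' (NNReal.coe_nonneg c), Real.toNNReal_coe, mul_div_cancel₀ _ hc,
      mul_inv_cancel_left₀ ha0.ne']
  · simp [ha2]
  · rw [mul_one]
    have haC : (a : ℂ) ≠ 0 := ofReal_ne_zero.2 ha0.ne'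
    push_cast
    field_simp

/-- The height is continuous in `y`. -/
lemma continuousAt_height (hU : Continuous U) (hy : 0 < y) (u : ℝ≥0) :
    ContinuousAt (fun y => height U y u) y := by
  have hlip : LipschitzOnWith ⟨Real.exp (2 / (y / 2) ^ 2 * u), (Real.exp_pos _).le⟩
      (fun y => height U y u) (Ioi (y / 2)) := LipschitzOnWith.of_dist_le_mul fun a ha b hb => by
    refine (dist_flow_le (y := y / 2) (continuous_pathExt hU) (by linarith) (NNReal.coe_nonneg _)
      (by rw [point_im]; exact ha.out.le) (by rw [point_im]; exact hb.out.le)).trans ?_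
    rw [dist_add_left, Complex.dist_eq, ← sub_mul, ← ofReal_sub, norm_mul, Complex.norm_I,
      mul_one, Complex.norm_real, Real.norm_eq_abs, ← Real.dist_eq]
    exact le_rfl
  exact hlip.continuousOn.continuousAt (Ioi_mem_nhds (by linarith))

/-! ### Laws -/

variable {Ω : Type*} [MeasurableSpace Ω] {P : Measure Ω} [IsProbabilityMeasure P]
  {X Y : ℝ≥0 → Ω → ℝ} {κ : ℝ}

/-- The height as a measurable functional of the Brownian path. -/
noncomputable def readHeight (κ y : ℝ) (u : ℝ≥0) (W : ℝ≥0 → ℝ) : ℂ :=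
  readVal (⟨u, mem_Iic.2 le_rfl⟩ : Iic u) y (pastOf u fun v => √κ * W v)

lemma measurable_readHeight (hy : 0 < y) (κ : ℝ) (u : ℝ≥0) :
    Measurable (readHeight κ y u) :=
  (measurable_readVal _ hy).comp
    (measurable_pi_lambda _ fun v => (measurable_pi_apply _).const_mul _)

omit [IsProbabilityMeasure P] in
lemma readHeight_eq (hX : IsNiceBM X P) (hy : 0 < y) (κ : ℝ) (u : ℝ≥0) (ω : Ω) :
    readHeight κ y u (X · ω) = height (drive κ X ω) y u :=
  readVal_pastOf _ hy (continuous_drive κ hX ω)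

omit [IsProbabilityMeasure P] in
lemma measurable_height (hX : IsNiceBM X P) (hy : 0 < y) (κ : ℝ) (u : ℝ≥0) :
    Measurable fun ω => height (drive κ X ω) y u := by
  simp only [← readHeight_eq hX hy]
  exact (measurable_readHeight hy κ u).comp hX.measurable_path

/-- Two Brownian motions give the same expectations. -/
lemma integral_path_eq {E : Type*} [NormedAddCommGroup E] [NormedSpace ℝ E]
    (hX : IsNiceBM X P) (hY : IsNiceBM Y P) {f : (ℝ≥0 → ℝ) → E} (hf : StronglyMeasurable f) :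
    ∫ ω, f (X · ω) ∂P = ∫ ω, f (Y · ω) ∂P := by
  rw [← integral_map hX.measurable_path.aemeasurable hf.aestronglyMeasurable,
    ← integral_map hY.measurable_path.aemeasurable hf.aestronglyMeasurable, hX.map_path_eq hY]

lemma integral_height_eq {E : Type*} [NormedAddCommGroup E] [NormedSpace ℝ E]
    (hX : IsNiceBM X P) (hY : IsNiceBM Y P) (hy : 0 < y) (κ : ℝ) (u : ℝ≥0) {G : ℂ → E}
    (hG : StronglyMeasurable G) :
    ∫ ω, G (height (drive κ X ω) y u) ∂P = ∫ ω, G (height (drive κ Y ω) y u) ∂P := by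
  simp only [← readHeight_eq hX hy, ← readHeight_eq hY hy]
  exact integral_path_eq hX hY (hG.comp_measurable (measurable_readHeight hy κ u))

omit [IsProbabilityMeasure P] in
lemma memLp_drive (hX : IsNiceBM X P) (κ : ℝ) (t : ℝ≥0) (p : ℝ≥0) :
    MemLp (fun ω => drive κ X ω t) p P := by
  have h := memLp_id_gaussianReal (μ := 0) (v := t) p
  rw [← (hX.law.hasLaw_eval t).map_eq] at h
  exact (h.comp_of_map (hX.meas t).aemeasurable).const_mul _

/-- Scaling of one value. -/
lemma integral_drive_scale {E : Type*} [NormedAddCommGroup E] [NormedSpace ℝ E]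
    (hX : IsNiceBM X P) (κ : ℝ) {δ : ℝ≥0} (hδ : δ ≠ 0) {f : ℝ → E} (hf : StronglyMeasurable f) :
    ∫ ω, f (drive κ X ω δ) ∂P = ∫ ω, f (√(δ : ℝ) * drive κ X ω 1) ∂P := by
  have hs : √(δ : ℝ) ≠ 0 := by
    rw [Real.sqrt_ne_zero (NNReal.coe_nonneg _)]; exact_mod_cast hδ
  have := integral_path_eq hX (hX.scale hδ)
    (f := fun W => f (√(δ : ℝ) * (√κ * W 1)))
    (hf.comp_measurable (((measurable_pi_apply _).const_mul _).const_mul _))
  refine Eq.trans ?_ this.symm
  congr 1
  funext ω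
  simp only [drive, mul_one]
  congr 1
  field_simp

lemma integral_drive_one (hX : IsNiceBM X P) (hκ : 0 ≤ κ) :
    ∫ ω, drive κ X ω 1 ∂P = 0 ∧ ∫ ω, drive κ X ω 1 ^ 2 ∂P = κ := by
  have hl := hX.law.hasLaw_eval 1
  have h1 : ∫ ω, X 1 ω ∂P = 0 := by rw [hl.integral_eq, integral_id_gaussianReal]
  have h2 : ∫ ω, X 1 ω ^ 2 ∂P = 1 := by
    have hv := hl.variance_eq
    rw [variance_id_gaussianReal, variance_eq_sub] at hv
    · simpa [h1] using hv
    · have h := memLp_id_gaussianReal (μ := 0) (v := (1 : ℝ≥0)) 2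
      rw [← hl.map_eq] at h
      exact_mod_cast h.comp_of_map (hX.meas 1).aemeasurable
  refine ⟨?_, ?_⟩
  · simp only [drive, integral_const_mul, h1, mul_zero]
  · simp only [drive, mul_pow, integral_const_mul, h2, Real.sq_sqrt hκ, mul_one]

lemma integral_drive_pow (hX : IsNiceBM X P) (hκ : 0 ≤ κ) {δ : ℝ≥0} (hδ : δ ≠ 0) :
    ∫ ω, drive κ X ω δ ∂P = 0 ∧ ∫ ω, drive κ X ω δ ^ 2 ∂P = κ * δ := by
  obtain ⟨h1, h2⟩ := integral_drive_one hX hκ
  refine ⟨?_, ?_⟩
  · rw [integral_drive_scale hX κ hδ (f := fun x => x) stronglyMeasurable_id, integral_const_mul, h1,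
      mul_zero]
  · rw [integral_drive_scale hX κ hδ (f := fun x => x ^ 2) (continuous_pow 2).stronglyMeasurable]
    simp only [mul_pow, integral_const_mul, h2, Real.sq_sqrt (NNReal.coe_nonneg δ)]
    ring

omit [MeasurableSpace Ω] in
lemma drive_shift (κ : ℝ) (X : ℝ≥0 → Ω → ℝ) (s : ℝ≥0) (ω : Ω) :
    drive κ (fun t ω => X (s + t) ω - X s ω) ω =
      fun v => drive κ X ω (s + v) - drive κ X ω s := by
  funext v
  simp only [drive]
  ring

omit [IsProbabilityMeasure P] in
lemma indep_drive_height (hX : IsNiceBM X P) (hy : 0 < y) (κ : ℝ) (δ u : ℝ≥0) :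
    IndepFun (fun ω => height (fun v => drive κ X ω (δ + v) - drive κ X ω δ) y u)
      (fun ω => drive κ X ω δ) P := by
  have h := (hX.law.indepFun_shift δ).comp (measurable_readHeight hy κ u)
    ((measurable_pi_apply (⟨δ, mem_Iic.2 le_rfl⟩ : Iic δ)).const_mul √κ)
  have e : (fun ω => height (fun v => drive κ X ω (δ + v) - drive κ X ω δ) y u) =
      readHeight κ y u ∘ fun ω t => X (δ + t) ω - X δ ω := by
    funext ω
    rw [← drive_shift, ← readHeight_eq (hX.shift δ) hy]
    rfl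
  rw [e]
  exact h

end Vale.Agent.P164
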