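import Vale.Agent.P164.Markov
import Vale.Agent.P164.Cpow

/-!
P164: the one-point moments `E (g_u⁻¹(U u + i y))^b` and their derivative in time,
`b (κ (b - 1) / 2 - 2)` times the moment of order `b - 2`.
-/

open Set Filter Metric MeasureTheory ProbabilityTheory Complex
open scoped NNReal ENNReal Topology

namespace Vale.Agent.P164

variable {Ω : Type*} [MeasurableSpace Ω] {P : Measure Ω} [IsProbabilityMeasure P]
  {X : ℝ≥0 → Ω → ℝ} {κ y b p : ℝ}

/-- The moment of order `p`. -/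
noncomputable def mom (P : Measure Ω) (X : ℝ≥0 → Ω → ℝ) (κ y p : ℝ) (u : ℝ≥0) : ℂ :=
  ∫ ω, pw p (height (drive κ X ω) y u) ∂P

/-- The coefficient of the generator. -/
noncomputable def coef (κ b : ℝ) : ℝ := b * (κ / 2 * (b - 1) - 2)

lemma rpow_le_one_add_sq {x : ℝ} (hx : 0 ≤ x) (hp0 : 0 ≤ p) (hp : p ≤ 2) :
    x ^ p ≤ 1 + x ^ 2 := by
  rcases le_or_gt x 1 with h | h
  · exact (Real.rpow_le_one hx h hp0).trans (by nlinarith)
  · refine (Real.rpow_le_rpow_of_exponent_le h.le hp).trans ?_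
    rw [Real.rpow_two]; linarith

lemma integrable_height_sq (hX : IsNiceBM X P) (hy : 0 < y) (κ : ℝ) (u : ℝ≥0) :
    Integrable (fun ω => ‖height (drive κ X ω) y u‖ ^ 2) P := by
  have h2 : Integrable (fun ω => drive κ X ω u ^ 2) P := (memLp_drive hX κ u 2).integrable_sq
  refine ((h2.const_mul 2).add (integrable_const (2 * (y + 2 / y * u) ^ 2))).mono'
    ((measurable_height hX hy κ u).norm.pow_const 2).aestronglyMeasurable (.of_forall fun ω => ?_)
  rw [Real.norm_of_nonneg (sq_nonneg _)]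
  have h := norm_height_le (continuous_drive κ hX ω) hy u
  have := sq_abs (drive κ X ω u)
  simp only [Pi.add_apply]
  nlinarith [pow_le_pow_left₀ (norm_nonneg _) h 2,
    sq_nonneg (|drive κ X ω u| - (y + 2 / y * u))]

omit [IsProbabilityMeasure P] in
lemma norm_pw_height_le (hX : IsNiceBM X P) (hy : 0 < y) (hp : p ≤ 2) (u : ℝ≥0) (ω : Ω) :
    ‖pw p (height (drive κ X ω) y u)‖ ≤ y ^ p + 1 + ‖height (drive κ X ω) y u‖ ^ 2 := by
  have := Real.rpow_nonneg hy.le p
  have := sq_nonneg ‖height (drive κ X ω) y u‖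
  rcases le_or_gt 0 p with h | h
  · have := rpow_le_one_add_sq (norm_nonneg (height (drive κ X ω) y u)) h hp
    rw [norm_pw]; linarith
  · have := norm_pw_le_of_nonpos hy h.le (le_im_height (continuous_drive κ hX ω) hy u)
    linarith

lemma integrable_pw_height (hX : IsNiceBM X P) (hy : 0 < y) (κ : ℝ) (hp : p ≤ 2) (u : ℝ≥0) :
    Integrable (fun ω => pw p (height (drive κ X ω) y u)) P :=
  ((integrable_const (y ^ p + 1)).add (integrable_height_sq hX hy κ u)).mono'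
    ((measurable_pw p).comp (measurable_height hX hy κ u)).aestronglyMeasurable
    (.of_forall fun ω => norm_pw_height_le hX hy hp u ω)

/-- One step, deterministically. -/
lemma step_bound (hy : 0 < y) (hb1 : 1 ≤ b) (hb2 : b ≤ 2) {Z W : ℂ} {v δ : ℝ} (hδ : 0 < δ)
    (hZ : y ≤ Z.im) (hW : y ≤ W.im) (hη : ‖W - (Z + v)‖ ≤ 2 / y * δ) :
    ‖pw b W - pw b Z - (b : ℂ) * (pw (b - 1) Z * v) -
        ((b * (b - 1) / 2 : ℂ) * (pw (b - 2) Z * (v ^ 2 : ℝ)) - 2 * δ * b * pw (b - 2) Z)‖ ≤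
      δ * (|b| * |b - 1| * y ^ (b - 2) * (2 / y) ^ 2 * δ +
          b * ((1 + ‖Z‖ + |v|) * (‖W - (Z + v) + 2 * (δ : ℂ) / (Z + v)‖ / δ)) +
          2 * b * |b - 2| * y ^ (b - 3) * |v|) +
        |b| * |b - 1| * |b - 2| * y ^ (b - 3) * |v| ^ 3 := by
  have hZv : y ≤ (Z + v).im := by simpa using hZ
  have hne : Z + v ≠ 0 := fun e => by rw [e, zero_im] at hZv; linarith
  set η := W - (Z + v) with hηdef
  have hW' : W = Z + v + η := by simp [hηdef]
  set M2 := |b| * |b - 1| * y ^ (b - 2)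
  set M3 := |b| * |b - 1| * |b - 2| * y ^ (b - 3)
  have h1 := pw_taylor1 hy hb2 hZv (hW' ▸ hW : y ≤ (Z + v + η).im)
  have h2 := pw_taylor2 hy hb2 hZ hZv
  have h3 := pw_lipschitz hy (p := b - 2) (by linarith) hZ hZv
  rw [Complex.norm_real, Real.norm_eq_abs] at h2
  rw [add_sub_cancel_left, Complex.norm_real, Real.norm_eq_abs,
    show b - 2 - 1 = b - 3 by ring] at h3
  have hsplit : pw (b - 1) (Z + v) = pw (b - 2) (Z + v) * (Z + v) := by
    rw [show (b - 1 : ℝ) = (b - 2) + 1 by ring, pw_add hne]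
    simp [pw]
  have hmul : (b : ℂ) * pw (b - 1) (Z + v) * (2 * δ / (Z + v)) =
      2 * δ * b * pw (b - 2) (Z + v) := by
    rw [hsplit]; field_simp
  have hid : pw b W - pw b Z - (b : ℂ) * (pw (b - 1) Z * v) -
      ((b * (b - 1) / 2 : ℂ) * (pw (b - 2) Z * (v ^ 2 : ℝ)) - 2 * δ * b * pw (b - 2) Z) =
      (pw b (Z + v + η) - pw b (Z + v) - (b : ℂ) * pw (b - 1) (Z + v) * η) +
      (pw b (Z + v) - pw b Z - (b : ℂ) * pw (b - 1) Z * v -
        (b * (b - 1) / 2 : ℂ) * pw (b - 2) Z * (v : ℂ) ^ 2) +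
      (b : ℂ) * pw (b - 1) (Z + v) * (η + 2 * δ / (Z + v)) -
      2 * δ * b * (pw (b - 2) (Z + v) - pw (b - 2) Z) := by
    rw [mul_add, hmul, ← hW']
    push_cast
    ring
  rw [hid]
  have hb0 : 0 ≤ b := by linarith
  have hP1 : ‖pw (b - 1) (Z + v)‖ ≤ 1 + ‖Z‖ + |v| := by
    have hZn : ‖Z + (v : ℂ)‖ ≤ ‖Z‖ + |v| := by
      refine (norm_add_le _ _).trans_eq ?_
      rw [Complex.norm_real, Real.norm_eq_abs]
    rw [norm_pw]
    rcases le_or_gt ‖Z + (v : ℂ)‖ 1 with h | h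
    · refine (Real.rpow_le_one (norm_nonneg _) h (by linarith)).trans ?_
      linarith [norm_nonneg Z, abs_nonneg v]
    · refine (Real.rpow_le_rpow_of_exponent_le h.le (show b - 1 ≤ 1 by linarith)).trans ?_
      rw [Real.rpow_one]; linarith
  have hA : ‖pw b (Z + v + η) - pw b (Z + v) - (b : ℂ) * pw (b - 1) (Z + v) * η‖ ≤
      M2 * (2 / y * δ) ^ 2 := h1.trans (by gcongr)
  have hC : ‖(b : ℂ) * pw (b - 1) (Z + v) * (η + 2 * δ / (Z + v))‖ ≤
      δ * (b * ((1 + ‖Z‖ + |v|) * (‖η + 2 * (δ : ℂ) / (Z + v)‖ / δ))) := by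
    rw [norm_mul, norm_mul, Complex.norm_real, Real.norm_of_nonneg hb0]
    refine (mul_le_mul_of_nonneg_right (mul_le_mul_of_nonneg_left hP1 hb0) (norm_nonneg _)).trans_eq ?_
    field_simp
  have hD : ‖2 * (δ : ℂ) * b * (pw (b - 2) (Z + v) - pw (b - 2) Z)‖ ≤
      2 * δ * b * (|b - 2| * y ^ (b - 3) * |v|) := by
    rw [norm_mul, norm_mul, norm_mul, Complex.norm_real, Complex.norm_real,
      Real.norm_of_nonneg hδ.le, Real.norm_of_nonneg hb0, Complex.norm_ofNat]
    gcongr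
  have := (norm_sub_le _ _).trans (add_le_add ((norm_add₃_le).trans (add_le_add_three hA h2 hC)) hD)
  refine this.trans (le_of_eq ?_)
  ring

/-- The start of one step. -/
noncomputable def base (X : ℝ≥0 → Ω → ℝ) (κ y : ℝ) (u : ℝ≥0) (δ : ℝ) (ω : Ω) : ℂ :=
  height (drive κ (fun t ω => X (δ.toNNReal + t) ω - X δ.toNNReal ω) ω) y u

/-- The error of one step at a sample. -/
noncomputable def stepErrAt (X : ℝ≥0 → Ω → ℝ) (κ y : ℝ) (u : ℝ≥0) (δ : ℝ) (ω : Ω) : ℝ :=
  stepErr (pathExt (drive κ X ω)) δ (base X κ y u δ ω + (drive κ X ω δ.toNNReal : ℂ))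

omit [IsProbabilityMeasure P] in
lemma height_step (hX : IsNiceBM X P) (hy : 0 < y) (u : ℝ≥0) {δ : ℝ} (hδ : 0 < δ) (ω : Ω) :
    height (drive κ X ω) y (δ.toNNReal + u) =
      flow (pathExt (drive κ X ω)) δ (base X κ y u δ ω + (drive κ X ω δ.toNNReal : ℂ)) := by
  rw [height_add (continuous_drive κ hX ω) hy, base, drive_shift, Real.coe_toNNReal δ hδ.le]

omit [IsProbabilityMeasure P] in
lemma le_im_base (hX : IsNiceBM X P) (hy : 0 < y) (κ : ℝ) (u : ℝ≥0) (δ : ℝ) (ω : Ω) :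
    y ≤ (base X κ y u δ ω + (drive κ X ω δ.toNNReal : ℂ)).im := by
  simpa [base] using le_im_height (continuous_drive κ (hX.shift δ.toNNReal) ω) hy u

omit [IsProbabilityMeasure P] in
lemma measurable_stepErrAt (hX : IsNiceBM X P) (hy : 0 < y) (κ : ℝ) (u : ℝ≥0) {δ : ℝ}
    (hδ : 0 < δ) : Measurable (stepErrAt X κ y u δ) := by
  have hZ : Measurable fun ω => base X κ y u δ ω + (drive κ X ω δ.toNNReal : ℂ) :=
    (measurable_height (hX.shift δ.toNNReal) hy κ u).add
      (Complex.measurable_ofReal.comp ((hX.meas _).const_mul _))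
  have hW := measurable_height hX hy κ (δ.toNNReal + u)
  simp only [height_step hX hy u hδ] at hW
  exact (((hW.sub hZ).add (measurable_const.div hZ)).norm).div_const δ

lemma tendsto_integral_stepErr (hX : IsNiceBM X P) (hy : 0 < y) (κ : ℝ) (u : ℝ≥0) :
    Tendsto (fun δ => ∫ ω, stepErrAt X κ y u δ ω ^ 2 ∂P) (𝓝[>] 0) (𝓝 0) := by
  rw [show (𝓝 (0 : ℝ)) = 𝓝 (∫ _ : Ω, (0 : ℝ) ∂P) by simp]
  refine tendsto_integral_filter_of_dominated_convergence (fun _ => (4 / y) ^ 2)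
    (eventually_mem_nhdsWithin.mono fun δ hδ =>
      ((measurable_stepErrAt hX hy κ u hδ).pow_const 2).aestronglyMeasurable)
    (eventually_mem_nhdsWithin.mono fun δ hδ => .of_forall fun ω => ?_) (integrable_const _) ?_
  · have hδ' : 0 < δ := hδ
    obtain ⟨M, hM⟩ := (isCompact_Icc (a := (0 : ℝ)) (b := δ)).exists_bound_of_continuousOn
      (continuous_pathExt (continuous_drive κ hX ω)).continuousOn
    have h := (stepErr_le (continuous_pathExt (continuous_drive κ hX ω)) hδ' hy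
      (le_im_base hX hy κ u δ ω) hM).1
    rw [Real.norm_of_nonneg (sq_nonneg _)]
    exact pow_le_pow_left₀ (div_nonneg (norm_nonneg _) hδ'.le) h 2
  · filter_upwards [hX.law.eval_zero_ae_eq_zero] with ω h0
    have := tendsto_stepErr (continuous_pathExt (continuous_drive κ hX ω))
      (by simp [pathExt, drive, h0]) hy
      (fun δ => base X κ y u δ ω + (drive κ X ω δ.toNNReal : ℂ))
      fun δ _ => le_im_base hX hy κ u δ ω
    simpa [stepErrAt] using this.pow 2

/-- One step in expectation. -/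
lemma norm_step_le (hX : IsNiceBM X P) (hκ : 0 ≤ κ) (hy : 0 < y) (hb1 : 1 ≤ b) (hb2 : b ≤ 2)
    (u : ℝ≥0) {δ ε : ℝ} (hδ : 0 < δ) (hδ1 : δ ≤ 1) (hε : 0 < ε) :
    ‖mom P X κ y b (δ.toNNReal + u) - mom P X κ y b u -
        (δ : ℂ) * ((coef κ b : ℂ) * mom P X κ y (b - 2) u)‖ ≤
      δ * (|b| * |b - 1| * y ^ (b - 2) * (2 / y) ^ 2 * δ +
        b * (3 * ε * (1 + (∫ ω, ‖height (drive κ X ω) y u‖ ^ 2 ∂P) + κ) +
          (∫ ω, stepErrAt X κ y u δ ω ^ 2 ∂P) / (4 * ε)) +
        2 * b * |b - 2| * y ^ (b - 3) * ((∫ ω, |drive κ X ω 1| ∂P) * √δ) +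
        |b| * |b - 1| * |b - 2| * y ^ (b - 3) * ((∫ ω, |drive κ X ω 1| ^ 3 ∂P) * √δ)) := by
  set D := δ.toNNReal with hD
  have hDδ : (D : ℝ) = δ := Real.coe_toNNReal δ hδ.le
  have hD0 : D ≠ 0 := (Real.toNNReal_pos.2 hδ).ne'
  set Y := fun t ω => X (D + t) ω - X D ω
  have hY : IsNiceBM Y P := hX.shift D
  set Z : Ω → ℂ := base X κ y u δ with hZdef
  set v : Ω → ℝ := fun ω => drive κ X ω D
  set R : Ω → ℝ := stepErrAt X κ y u δ
  set W : Ω → ℂ := fun ω => height (drive κ X ω) y (D + u)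
  have hv : Measurable v := (hX.meas D).const_mul _
  have hZm : Measurable Z := measurable_height hY hy κ u
  have hZy : ∀ ω, y ≤ (Z ω).im := fun ω => le_im_height (continuous_drive κ hY ω) hy u
  have hR0 : ∀ ω, 0 ≤ R ω := fun ω => div_nonneg (norm_nonneg _) hδ.le
  have hRb : ∀ ω, R ω ≤ 4 / y := fun ω => by
    obtain ⟨M, hM⟩ := (isCompact_Icc (a := (0 : ℝ)) (b := δ)).exists_bound_of_continuousOn
      (continuous_pathExt (continuous_drive κ hX ω)).continuousOn
    exact (stepErr_le (continuous_pathExt (continuous_drive κ hX ω)) hδ hy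
      (le_im_base hX hy κ u δ ω) hM).1
  -- the same law as at time `u`
  have hsame : ∀ p, ∫ ω, pw p (Z ω) ∂P = mom P X κ y p u := fun p =>
    integral_height_eq hY hX hy κ u (measurable_pw p).stronglyMeasurable
  have hsq : ∫ ω, ‖Z ω‖ ^ 2 ∂P = ∫ ω, ‖height (drive κ X ω) y u‖ ^ 2 ∂P :=
    integral_height_eq hY hX hy κ u ((continuous_norm.pow 2).stronglyMeasurable)
  -- moments of the increment
  obtain ⟨hv1, hv2⟩ := integral_drive_pow hX hκ hD0
  have hva : ∫ ω, |v ω| ∂P = (∫ ω, |drive κ X ω 1| ∂P) * √δ := by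
    rw [integral_drive_scale hX κ hD0 (f := fun x => |x|) continuous_abs.stronglyMeasurable, hDδ]
    simp only [abs_mul, abs_of_nonneg (Real.sqrt_nonneg δ), integral_const_mul]
    ring
  have hv3 : ∫ ω, |v ω| ^ 3 ∂P = δ * ((∫ ω, |drive κ X ω 1| ^ 3 ∂P) * √δ) := by
    rw [integral_drive_scale hX κ hD0 (f := fun x => |x| ^ 3)
      (continuous_abs.pow 3).stronglyMeasurable, hDδ]
    simp only [abs_mul, abs_of_nonneg (Real.sqrt_nonneg δ), mul_pow, integral_const_mul]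
    rw [show √δ ^ 3 = δ * √δ by rw [pow_succ, Real.sq_sqrt hδ.le]]
    ring
  have iv : Integrable v P := memLp_one_iff_integrable.1 (by exact_mod_cast memLp_drive hX κ D 1)
  have iv2 : Integrable (fun ω => v ω ^ 2) P := (memLp_drive hX κ D 2).integrable_sq
  have iv3 : Integrable (fun ω => |v ω| ^ 3) P := by
    simpa using (memLp_drive hX κ D 3).integrable_norm_pow'
  have iZ2 : Integrable (fun ω => ‖Z ω‖ ^ 2) P := integrable_height_sq hY hy κ u
  have iR2 : Integrable (fun ω => R ω ^ 2) P :=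
    (integrable_const ((4 / y) ^ 2)).mono'
      ((measurable_stepErrAt hX hy κ u hδ).pow_const 2).aestronglyMeasurable
      (.of_forall fun ω => by
        rw [Real.norm_of_nonneg (sq_nonneg _)]
        exact pow_le_pow_left₀ (hR0 ω) (hRb ω) 2)
  -- independence
  have hind : IndepFun Z v P := by
    have := indep_drive_height hX hy κ D u
    simp only [← drive_shift] at this
    exact this
  have hP1 : IndepFun (fun ω => pw (b - 1) (Z ω)) (fun ω => (v ω : ℂ)) P :=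
    hind.comp (measurable_pw _) Complex.measurable_ofReal
  have hP2 : IndepFun (fun ω => pw (b - 2) (Z ω)) (fun ω => ((v ω ^ 2 : ℝ) : ℂ)) P :=
    hind.comp (measurable_pw _) (Complex.measurable_ofReal.comp (measurable_id.pow_const 2))
  have i1 : Integrable (fun ω => pw (b - 1) (Z ω)) P :=
    integrable_pw_height hY hy κ (by linarith) u
  have i2 : Integrable (fun ω => pw (b - 2) (Z ω)) P :=
    integrable_pw_height hY hy κ (by linarith) u
  have e1 : ∫ ω, pw (b - 1) (Z ω) * (v ω : ℂ) ∂P = 0 := by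
    rw [hP1.integral_fun_mul_eq_mul_integral i1.aestronglyMeasurable iv.ofReal.aestronglyMeasurable,
      integral_complex_ofReal, hv1, ofReal_zero, mul_zero]
  have e2 : ∫ ω, pw (b - 2) (Z ω) * ((v ω ^ 2 : ℝ) : ℂ) ∂P =
      mom P X κ y (b - 2) u * ((κ * δ : ℝ) : ℂ) := by
    rw [hP2.integral_fun_mul_eq_mul_integral i2.aestronglyMeasurable
      iv2.ofReal.aestronglyMeasurable, integral_complex_ofReal, hv2, hsame, hDδ]
  have j1 : Integrable (fun ω => pw (b - 1) (Z ω) * (v ω : ℂ)) P :=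
    hP1.integrable_mul i1 iv.ofReal
  have j2 : Integrable (fun ω => pw (b - 2) (Z ω) * ((v ω ^ 2 : ℝ) : ℂ)) P :=
    hP2.integrable_mul i2 iv2.ofReal
  have iW : Integrable (fun ω => pw b (W ω)) P := integrable_pw_height hX hy κ hb2 _
  have iZ : Integrable (fun ω => pw b (Z ω)) P := integrable_pw_height hY hy κ hb2 u
  -- the pointwise bound
  set rem : Ω → ℂ := fun ω => pw b (W ω) - pw b (Z ω) - (b : ℂ) * (pw (b - 1) (Z ω) * (v ω : ℂ)) -
    ((b * (b - 1) / 2 : ℂ) * (pw (b - 2) (Z ω) * ((v ω ^ 2 : ℝ) : ℂ)) -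
      2 * δ * b * pw (b - 2) (Z ω))
  have hrem : ∫ ω, rem ω ∂P = mom P X κ y b (D + u) - mom P X κ y b u -
      (δ : ℂ) * ((coef κ b : ℂ) * mom P X κ y (b - 2) u) := by
    simp only [rem]
    have k1 := j1.const_mul (b : ℂ)
    have k2 := j2.const_mul ((b * (b - 1) / 2 : ℂ))
    have k3 := i2.const_mul (2 * δ * b : ℂ)
    rw [integral_sub ((iW.sub' iZ).sub' k1) (k2.sub' k3), integral_sub (iW.sub' iZ) k1,
      integral_sub iW iZ, integral_sub k2 k3]
    simp only [integral_const_mul, e1, e2, hsame]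
    simp only [W, coef]
    unfold mom
    push_cast
    ring
  rw [← hrem]
  set A := |b| * |b - 1| * y ^ (b - 2) * (2 / y) ^ 2 * δ
  set B := 2 * b * |b - 2| * y ^ (b - 3)
  set C := |b| * |b - 1| * |b - 2| * y ^ (b - 3)
  refine (norm_integral_le_integral_norm _).trans ?_
  refine le_trans (integral_mono_of_nonneg (g := fun ω => δ * (A +
      b * (3 * ε * (1 + ‖Z ω‖ ^ 2 + v ω ^ 2) + R ω ^ 2 / (4 * ε)) + B * |v ω|) + C * |v ω| ^ 3)
    (.of_forall fun ω => norm_nonneg _) ?_ (.of_forall fun ω => ?_)) ?_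
  · exact ((((integrable_const A).fun_add (((((integrable_const 1).fun_add iZ2).fun_add iv2).const_mul
      (3 * ε) |>.fun_add (iR2.div_const (4 * ε))).const_mul b)).fun_add (iv.abs.const_mul B)).const_mul
      δ).fun_add (iv3.const_mul C)
  · have hflow : W ω = flow (pathExt (drive κ X ω)) δ (Z ω + (v ω : ℂ)) :=
      height_step hX hy u hδ ω
    have hη : ‖W ω - (Z ω + (v ω : ℂ))‖ ≤ 2 / y * δ := by
      rw [hflow]
      exact norm_flow_sub_le (continuous_pathExt (continuous_drive κ hX ω)) hδ.le hy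
        (le_im_base hX hy κ u δ ω)
    have hbd := step_bound hy hb1 hb2 hδ (hZy ω)
      (le_im_height (continuous_drive κ hX ω) hy _) hη
    refine le_trans hbd ?_
    dsimp only
    have hRdef : R ω = ‖W ω - (Z ω + (v ω : ℂ)) + 2 * (δ : ℂ) / (Z ω + (v ω : ℂ))‖ / δ := by
      rw [hflow]; rfl
    rw [← hRdef]
    have hb0 : 0 ≤ b := by linarith
    gcongr
    have h4 : (1 + ‖Z ω‖ + |v ω|) * R ω ≤
        ε * (1 + ‖Z ω‖ + |v ω|) ^ 2 + R ω ^ 2 / (4 * ε) := by
      rw [← sub_nonneg]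
      have : 0 ≤ (2 * ε * (1 + ‖Z ω‖ + |v ω|) - R ω) ^ 2 / (4 * ε) := by positivity
      refine this.trans_eq ?_
      field_simp
      ring
    refine h4.trans (add_le_add ?_ le_rfl)
    rw [mul_assoc, mul_comm 3, mul_assoc]
    refine mul_le_mul_of_nonneg_left ?_ hε.le
    nlinarith [sq_abs (v ω), sq_nonneg (1 - ‖Z ω‖), sq_nonneg (1 - |v ω|),
      sq_nonneg (‖Z ω‖ - |v ω|)]
  · have l1 : Integrable (fun ω => 1 + ‖Z ω‖ ^ 2) P := (integrable_const 1).fun_add iZ2
    have l2 := (l1.fun_add iv2).const_mul (3 * ε)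
    have l3 := (l2.fun_add (iR2.div_const (4 * ε))).const_mul b
    have l4 : Integrable (fun ω => A + b * (3 * ε * (1 + ‖Z ω‖ ^ 2 + v ω ^ 2) +
      R ω ^ 2 / (4 * ε))) P := (integrable_const A).fun_add l3
    rw [integral_add ((l4.fun_add (iv.abs.const_mul B)).const_mul δ) (iv3.const_mul C),
      integral_const_mul, integral_add l4 (iv.abs.const_mul B),
      integral_add (integrable_const A) l3, integral_const_mul b,
      integral_add l2 (iR2.div_const (4 * ε)), integral_const_mul (3 * ε),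
      integral_add l1 iv2, integral_add (integrable_const 1) iZ2, integral_div, integral_const_mul B,
      integral_const_mul C]
    simp only [integral_const, probReal_univ, one_smul]
    rw [hva, hv3, hv2, hsq, hDδ, mul_left_comm C δ, ← mul_add δ]
    have hb0 : 0 ≤ b := by linarith
    gcongr
    exact mul_le_of_le_one_right hκ hδ1

/-- The right derivative of a moment in time. -/
theorem hasDeriv_mom (hX : IsNiceBM X P) (hκ : 0 ≤ κ) (hy : 0 < y) (hb1 : 1 ≤ b) (hb2 : b ≤ 2)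
    {u : ℝ} (hu : 0 ≤ u) :
    HasDerivWithinAt (fun x : ℝ => mom P X κ y b x.toNNReal)
      ((coef κ b : ℂ) * mom P X κ y (b - 2) u.toNNReal) (Ici u) u := by
  rw [← hasDerivWithinAt_Ioi_iff_Ici, hasDerivWithinAt_iff_tendsto_slope' (notMem_Ioi.2 le_rfl)]
  set L := (coef κ b : ℂ) * mom P X κ y (b - 2) u.toNNReal
  have hmap : Tendsto (fun x : ℝ => x - u) (𝓝[>] u) (𝓝[>] 0) :=
    tendsto_nhdsWithin_iff.2 ⟨by
      simpa [Pi.sub_def] using ((continuous_id.sub (continuous_const (y := u))).tendsto u).mono_left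
        (nhdsWithin_le_nhds (s := Ioi u)),
      eventually_mem_nhdsWithin.mono fun x hx => sub_pos.2 (show u < x from hx)⟩
  suffices Tendsto (fun δ : ℝ => δ⁻¹ • (mom P X κ y b (δ.toNNReal + u.toNNReal) -
      mom P X κ y b u.toNNReal)) (𝓝[>] 0) (𝓝 L) by
    refine (this.comp hmap).congr' (eventually_mem_nhdsWithin.mono fun x hx => ?_)
    have hx' : 0 ≤ x - u := (sub_pos.2 (show u < x from hx)).le
    simp only [Function.comp, slope, vsub_eq_sub]
    rw [← Real.toNNReal_add hx' hu, sub_add_cancel]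
  rw [Metric.tendsto_nhds]
  intro e he
  set N := ∫ ω, ‖height (drive κ X ω) y u.toNNReal‖ ^ 2 ∂P
  set a1 := ∫ ω, |drive κ X ω 1| ∂P
  set a3 := ∫ ω, |drive κ X ω 1| ^ 3 ∂P
  have hN : 0 ≤ N := integral_nonneg fun _ => sq_nonneg _
  set ε := e / (2 * (b * (3 * (1 + N + κ)) + 1))
  have hε : 0 < ε := by positivity
  have hsqrt : Tendsto (fun δ : ℝ => √δ) (𝓝[>] 0) (𝓝 0) := by
    simpa using (Real.continuous_sqrt.tendsto 0).mono_left (nhdsWithin_le_nhds (s := Ioi (0 : ℝ)))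
  have hid : Tendsto (fun δ : ℝ => δ) (𝓝[>] 0) (𝓝 0) := nhdsWithin_le_nhds
  have hsmall : Tendsto (fun δ : ℝ => |b| * |b - 1| * y ^ (b - 2) * (2 / y) ^ 2 * δ +
      b * ((∫ ω, stepErrAt X κ y u.toNNReal δ ω ^ 2 ∂P) / (4 * ε)) +
      2 * b * |b - 2| * y ^ (b - 3) * (a1 * √δ) +
      |b| * |b - 1| * |b - 2| * y ^ (b - 3) * (a3 * √δ)) (𝓝[>] 0) (𝓝 0) := by
    have := (((hid.const_mul (|b| * |b - 1| * y ^ (b - 2) * (2 / y) ^ 2)).add
      (((tendsto_integral_stepErr hX hy κ u.toNNReal).div_const (4 * ε)).const_mul b)).add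
      ((hsqrt.const_mul a1).const_mul (2 * b * |b - 2| * y ^ (b - 3)))).add
      ((hsqrt.const_mul a3).const_mul (|b| * |b - 1| * |b - 2| * y ^ (b - 3)))
    simpa using this
  filter_upwards [Ioo_mem_nhdsGT (show (0 : ℝ) < 1 by norm_num),
    hsmall.eventually_lt_const (show (0 : ℝ) < e / 2 by linarith)] with δ hδ hlt
  have hb := norm_step_le hX hκ hy hb1 hb2 u.toNNReal hδ.1 hδ.2.le hε
  have hdiv : ‖δ⁻¹ • (mom P X κ y b (δ.toNNReal + u.toNNReal) - mom P X κ y b u.toNNReal) - L‖ =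
      δ⁻¹ * ‖mom P X κ y b (δ.toNNReal + u.toNNReal) - mom P X κ y b u.toNNReal - (δ : ℂ) * L‖ := by
    rw [← abs_of_pos (inv_pos.2 hδ.1), ← Real.norm_eq_abs, ← norm_smul, Real.norm_eq_abs,
      abs_of_pos (inv_pos.2 hδ.1)]
    congr 1
    rw [smul_sub δ⁻¹ _ ((δ : ℂ) * L), ← Complex.real_smul (x := δ) (z := L), smul_smul,
      inv_mul_cancel₀ hδ.1.ne', one_smul]
  rw [dist_eq_norm, hdiv, inv_mul_lt_iff₀ hδ.1]
  refine hb.trans_lt (mul_lt_mul_of_pos_left ?_ hδ.1)
  have hεb : b * (3 * ε * (1 + N + κ)) < e / 2 := by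
    have hK : 0 ≤ b * (3 * (1 + N + κ)) := by positivity
    rw [show b * (3 * ε * (1 + N + κ)) = b * (3 * (1 + N + κ)) * ε by ring]
    simp only [ε]
    rw [← mul_div_assoc, div_lt_div_iff₀ (by positivity) (by norm_num)]
    nlinarith
  linarith

end Vale.Agent.P164
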