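import Vale.Agent.P164.Flow
import Vale.Agent.P164.Gauge

/-!
P164: tips of the Loewner chain at rational times, read measurably from finitely many values of
the driving path at a time.
-/

open Set Filter Metric MeasureTheory Complex
open scoped NNReal ENNReal Topology

namespace Vale.Agent.P164

/-- A path on the half-line as a function on the line. -/
def pathExt (U : ℝ≥0 → ℝ) (r : ℝ) : ℝ := U r.toNNReal

/-- `z` is the tip at time `q`. -/
def IsTip (U : ℝ≥0 → ℝ) (q : ℝ≥0) (z : ℂ) : Prop :=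
  Tendsto (fun y : ℝ => flow (pathExt U) q ((U q : ℂ) + (y : ℂ) * I)) (𝓝[>] 0) (𝓝 z)

/-- The tips at rational times in `[s, t]`. -/
def tips (U : ℝ≥0 → ℝ) (s t : ℝ≥0) : Set ℂ :=
  {z | ∃ q : ℚ≥0, s ≤ (q : ℝ≥0) ∧ (q : ℝ≥0) ≤ t ∧ IsTip U q z}

variable {U : ℝ≥0 → ℝ}

lemma continuous_pathExt (hU : Continuous U) : Continuous (pathExt U) :=
  hU.comp continuous_real_toNNReal

lemma pathExt_coe (U : ℝ≥0 → ℝ) (q : ℝ≥0) : pathExt U q = U q := by simp [pathExt]

lemma point_im (v y : ℝ) : ((v : ℂ) + (y : ℂ) * I).im = y := by simp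

lemma point_re (v y : ℝ) : ((v : ℂ) + (y : ℂ) * I).re = v := by simp

lemma dist_flow_drive {V V' : ℝ → ℝ} {t y M : ℝ} {w w' : ℂ} (hV : Continuous V)
    (hV' : Continuous V') (hy : 0 < y) (ht : 0 ≤ t) (hw : y ≤ w.im) (hw' : y ≤ w'.im)
    (hM : ∀ u ∈ Icc (0 : ℝ) t, |V u - V' u| ≤ M) :
    dist (flow V t w) (flow V' t w') ≤ Real.exp (2 / y ^ 2 * t) * (dist w w' + M) := by
  have hM0 : 0 ≤ M := (abs_nonneg _).trans (hM 0 ⟨le_rfl, ht⟩)
  have h := dist_le_of_isFlow hy hw hw' ht (isFlow_flow hV ht (hy.trans_le hw))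
    (isFlow_flow hV' ht (hy.trans_le hw')) hM
  have hK : (2 / y ^ 2 : ℝ) ≠ 0 := by positivity
  rw [gronwallBound_of_K_ne_0 hK] at h
  refine h.trans ?_
  rw [mul_div_cancel_left₀ _ hK]
  nlinarith [Real.exp_pos (2 / y ^ 2 * t)]

lemma flow_congr {V V' : ℝ → ℝ} {t : ℝ} {w : ℂ} (hV : Continuous V) (hV' : Continuous V')
    (ht : 0 ≤ t) (hw : 0 < w.im) (h : ∀ u ∈ Icc (0 : ℝ) t, V u = V' u) :
    flow V t w = flow V' t w := by
  have := dist_flow_drive (w := w) (w' := w) hV hV' hw ht le_rfl le_rfl (M := 0)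
    fun u hu => by simp [h u hu]
  simpa using this

/-- The flow stays in a box. -/
lemma flow_mem_box {V : ℝ → ℝ} {t M : ℝ} {w : ℂ} (hV : Continuous V) (ht : 0 ≤ t)
    (hw : 0 < w.im) (hM : ∀ u ∈ Icc (0 : ℝ) t, |V u| ≤ M) (hre : |w.re| ≤ M) :
    |(flow V t w).re| ≤ M ∧ (flow V t w).im ^ 2 ≤ w.im ^ 2 + 4 * t := by
  obtain ⟨h, h0, h1, hh⟩ := isFlow_flow hV ht hw
  rw [← h1]
  have hd : ∀ u ∈ Ico (0 : ℝ) t, HasDerivWithinAt h (-2 / (h u - (V (t - u) : ℂ))) (Ici u) u :=
    fun u hu => (hh u (Ico_subset_Icc_self hu)).2.mono_of_mem_nhdsWithin (Icc_mem_nhdsGE_of_mem hu)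
  have hcont : ContinuousOn h (Icc 0 t) := fun u hu => (hh u hu).2.continuousWithinAt
  have hre' : ∀ u ∈ Ico (0 : ℝ) t, HasDerivWithinAt (fun r => (h r).re)
      ((-2 / (h u - (V (t - u) : ℂ))).re) (Ici u) u := fun u hu =>
    Complex.reCLM.hasFDerivAt.comp_hasDerivWithinAt u (hd u hu)
  have hval : ∀ ζ : ℂ, (-2 / ζ).re = -2 * ζ.re / normSq ζ := fun ζ => by
    simp [Complex.div_re]
  refine ⟨abs_le.2 ⟨?_, ?_⟩, ?_⟩
  · refine le_of_forall_pos_le_add fun ε hε => ?_
    have := image_le_of_deriv_right_lt_deriv_boundary (f := fun r => -(h r).re)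
      (B := fun r => M + ε * (1 + r) / (1 + t)) (B' := fun _ => ε / (1 + t))
      ((Complex.continuous_re.comp_continuousOn hcont).neg) (fun u hu => (hre' u hu).neg) ?_ ?_ ?_
      (right_mem_Icc.2 ht)
    · rw [mul_div_assoc, div_self (by positivity), mul_one] at this
      linarith
    · show -(h 0).re ≤ _
      rw [h0]
      have : 0 ≤ ε * (1 + 0) / (1 + t) := by positivity
      linarith [(abs_le.1 hre).1]
    · intro r
      refine ((((hasDerivAt_id r).const_add 1).const_mul ε).div_const (1 + t) |>.const_add M).congr_deriv ?_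
      ring
    · intro u hu he
      rw [hval, show ∀ X N : ℝ, -(-2 * X / N) = 2 * X / N from fun X N => by ring]
      have hV' := abs_le.1 (hM (t - u) ⟨by linarith [hu.2], by linarith [hu.1]⟩)
      have : 0 ≤ ε * (1 + u) / (1 + t) := by have := hu.1; positivity
      have hneg : (h u - (V (t - u) : ℂ)).re ≤ 0 := by
        rw [sub_re, ofReal_re]; linarith
      have h1 : 2 * (h u - (V (t - u) : ℂ)).re / normSq (h u - (V (t - u) : ℂ)) ≤ 0 :=
        div_nonpos_of_nonpos_of_nonneg (by linarith) (normSq_nonneg _)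
      have : 0 < ε / (1 + t) := by positivity
      linarith
  · refine le_of_forall_pos_le_add fun ε hε => ?_
    have := image_le_of_deriv_right_lt_deriv_boundary (f := fun r => (h r).re)
      (B := fun r => M + ε * (1 + r) / (1 + t)) (B' := fun _ => ε / (1 + t))
      (Complex.continuous_re.comp_continuousOn hcont) hre' ?_ ?_ ?_ (right_mem_Icc.2 ht)
    · rwa [mul_div_assoc, div_self (by positivity), mul_one] at this
    · show (h 0).re ≤ _
      rw [h0]
      have : 0 ≤ ε * (1 + 0) / (1 + t) := by positivity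
      linarith [(abs_le.1 hre).2]
    · intro r
      refine ((((hasDerivAt_id r).const_add 1).const_mul ε).div_const (1 + t) |>.const_add M).congr_deriv ?_
      ring
    · intro u hu he
      rw [hval]
      have hV' := abs_le.1 (hM (t - u) ⟨by linarith [hu.2], by linarith [hu.1]⟩)
      have : 0 ≤ ε * (1 + u) / (1 + t) := by have := hu.1; positivity
      have hpos : 0 ≤ (h u - (V (t - u) : ℂ)).re := by
        rw [sub_re, ofReal_re]; linarith
      have h1 : -2 * (h u - (V (t - u) : ℂ)).re / normSq (h u - (V (t - u) : ℂ)) ≤ 0 :=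
        div_nonpos_of_nonpos_of_nonneg (by linarith) (normSq_nonneg _)
      have : 0 < ε / (1 + t) := by positivity
      linarith
  · have him : ∀ u ∈ Ico (0 : ℝ) t, HasDerivWithinAt (fun r => (h r).im ^ 2)
        (2 * (h u).im * (-2 / (h u - (V (t - u) : ℂ))).im) (Ici u) u := fun u hu => by
      have := (Complex.imCLM.hasFDerivAt.comp_hasDerivWithinAt u (hd u hu)).fun_pow 2
      simpa using this
    refine image_le_of_deriv_right_le_deriv_boundary (f := fun r => (h r).im ^ 2)
      (B := fun r => w.im ^ 2 + 4 * r) (B' := fun _ => 4)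
      ((Complex.continuous_im.comp_continuousOn hcont).pow 2) him (by simp [h0])
      (by fun_prop) (fun r _ => ?_) (fun u hu => ?_) (right_mem_Icc.2 ht)
    · simpa using (((hasDerivAt_id r).const_mul (4 : ℝ)).const_add (w.im ^ 2)).hasDerivWithinAt
    · rw [neg_two_div_im, sub_im, ofReal_im, sub_zero]
      have hpos := (hh u (Ico_subset_Icc_self hu)).1
      have hN : (h u).im ^ 2 ≤ normSq (h u - (V (t - u) : ℂ)) := by
        rw [normSq_apply]; simp; nlinarith
      rw [← mul_div_assoc, div_le_iff₀ (lt_of_lt_of_le (by positivity) hN)]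
      linarith

lemma tips_im_nonneg (hU : Continuous U) {s t : ℝ≥0} {z : ℂ} (hz : z ∈ tips U s t) : 0 ≤ z.im := by
  obtain ⟨q, -, -, hq⟩ := hz
  refine ge_of_tendsto ((Complex.continuous_im.tendsto z).comp hq) ?_
  filter_upwards [self_mem_nhdsWithin] with y hy
  have := flow_im_ge (continuous_pathExt hU) (NNReal.coe_nonneg (q : ℝ≥0))
    (show 0 < ((U q : ℂ) + (y : ℂ) * I).im by rw [point_im]; exact hy)
  rw [point_im] at this
  exact hy.out.le.trans this

lemma tips_bounded (hU : Continuous U) (s t : ℝ≥0) : Bornology.IsBounded (tips U s t) := by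
  obtain ⟨M, hM⟩ := (isCompact_Icc (a := (0 : ℝ)) (b := t)).exists_bound_of_continuousOn
    (continuous_pathExt hU).continuousOn
  refine (Metric.isBounded_closedBall (x := (0 : ℂ)) (r := M + (1 + 4 * t + 1))).subset ?_
  rintro z ⟨q, -, hqt, hq⟩
  rw [mem_closedBall_zero_iff]
  refine le_of_tendsto (hq.norm) ?_
  filter_upwards [Ioo_mem_nhdsGT (show (0 : ℝ) < 1 by norm_num)] with y hy
  have hqt' : ((q : ℝ≥0) : ℝ) ≤ t := hqt
  have hMq : ∀ u ∈ Icc (0 : ℝ) ((q : ℝ≥0) : ℝ), |pathExt U u| ≤ M := fun u hu =>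
    hM u ⟨hu.1, hu.2.trans hqt'⟩
  obtain ⟨hre, him⟩ := flow_mem_box (continuous_pathExt hU) (NNReal.coe_nonneg (q : ℝ≥0))
    (w := (U q : ℂ) + (y : ℂ) * I) (by rw [point_im]; exact hy.1) hMq
    (by rw [point_re, ← pathExt_coe U]; exact hMq _ ⟨NNReal.coe_nonneg _, le_rfl⟩)
  rw [point_im] at him
  refine (Complex.norm_le_abs_re_add_abs_im _).trans (add_le_add hre ?_)
  rw [abs_le]
  constructor <;> nlinarith [hy.1, hy.2]

/-- Bernstein interpolation of the values at `k q / (n + 1)`. -/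
noncomputable def interp (q : ℝ) (n : ℕ) (c : Fin (n + 2) → ℝ) (r : ℝ) : ℝ :=
  ∑ k : Fin (n + 2), c k * bernstein (n + 1) k (projIcc 0 1 zero_le_one (r / q))

lemma continuous_interp (q : ℝ) (n : ℕ) (c : Fin (n + 2) → ℝ) : Continuous (interp q n c) := by
  unfold interp
  refine continuous_finsetSum _ fun k _ => continuous_const.mul ?_
  exact (bernstein (n + 1) k).continuous.comp
    (continuous_projIcc.comp (continuous_id.div_const q))

lemma abs_interp_sub_le (q : ℝ) (n : ℕ) (c c' : Fin (n + 2) → ℝ) (r : ℝ) :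
    |interp q n c r - interp q n c' r| ≤ dist c c' := by
  rw [interp, interp, ← Finset.sum_sub_distrib]
  set x := projIcc 0 1 zero_le_one (r / q)
  refine (Finset.abs_sum_le_sum_abs _ _).trans ?_
  calc ∑ k : Fin (n + 2), |c k * bernstein (n + 1) k x - c' k * bernstein (n + 1) k x|
      ≤ ∑ k : Fin (n + 2), dist c c' * bernstein (n + 1) k x := by
        refine Finset.sum_le_sum fun k _ => ?_
        rw [← sub_mul, abs_mul, abs_of_nonneg bernstein_nonneg]
        refine mul_le_mul_of_nonneg_right ?_ bernstein_nonneg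
        rw [← Real.dist_eq]
        exact dist_le_pi_dist c c' k
    _ = dist c c' := by rw [← Finset.mul_sum, bernstein.probability, mul_one]

/-- Paths up to time `t`. -/
abbrev Past (t : ℝ≥0) : Type := Iic t → ℝ

/-- The restriction of a path. -/
def pastOf (t : ℝ≥0) (U : ℝ≥0 → ℝ) : Past t := fun u => U u

/-- The grid `k q / (n + 1)`. -/
noncomputable def grid {t : ℝ≥0} (q : Iic t) (n : ℕ) (k : Fin (n + 2)) : Iic t :=
  ⟨(q : ℝ≥0) * ((k : ℕ) : ℝ≥0) / ((n : ℝ≥0) + 1), by
    refine le_trans ?_ (show (q : ℝ≥0) ≤ t from q.2)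
    rw [div_le_iff₀ (by positivity)]
    refine mul_le_mul_right ?_ _
    exact_mod_cast Nat.le_of_lt_succ k.2⟩

/-- The approximate value of the flow at height `y`. -/
noncomputable def approxVal {t : ℝ≥0} (q : Iic t) (y : ℝ) (n : ℕ) (c : Fin (n + 2) → ℝ) : ℂ :=
  flow (interp (q : ℝ≥0) n c) ((q : ℝ≥0) : ℝ) ((c (Fin.last (n + 1)) : ℂ) + (y : ℂ) * I)

lemma continuous_approxVal {t : ℝ≥0} (q : Iic t) {y : ℝ} (hy : 0 < y) (n : ℕ) :
    Continuous (approxVal q y n) := by
  set E := Real.exp (2 / y ^ 2 * ((q : ℝ≥0) : ℝ))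
  have hE : 0 ≤ E := (Real.exp_pos _).le
  refine (LipschitzWith.of_dist_le_mul (K := ⟨2 * E, by positivity⟩) fun c c' => ?_).continuous
  refine le_trans (dist_flow_drive (continuous_interp _ _ _) (continuous_interp _ _ _) hy
    (NNReal.coe_nonneg _) (by rw [point_im]) (by rw [point_im]) (M := dist c c')
    fun u _ => abs_interp_sub_le _ _ _ _ _) ?_
  have : dist ((c (Fin.last (n + 1)) : ℂ) + (y : ℂ) * I) ((c' (Fin.last (n + 1)) : ℂ) + (y : ℂ) * I)
      ≤ dist c c' := by
    rw [dist_add_right, Complex.dist_eq, ← ofReal_sub, Complex.norm_real, Real.norm_eq_abs,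
      ← Real.dist_eq]
    exact dist_le_pi_dist c c' _
  show E * (_ + dist c c') ≤ 2 * E * dist c c'
  nlinarith

/-- The flow read from the past. -/
noncomputable def readVal {t : ℝ≥0} (q : Iic t) (y : ℝ) (w : Past t) : ℂ :=
  limUnder atTop fun n => approxVal q y n fun k => w (grid q n k)

lemma measurable_readVal {t : ℝ≥0} (q : Iic t) {y : ℝ} (hy : 0 < y) :
    Measurable (readVal q y) := by
  refine (StronglyMeasurable.limUnder fun n => Measurable.stronglyMeasurable ?_).measurable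
  exact (continuous_approxVal q hy n).measurable.comp
    (measurable_pi_lambda _ fun k => measurable_pi_apply _)

lemma readVal_pastOf {t : ℝ≥0} (q : Iic t) {y : ℝ} (hy : 0 < y) (hU : Continuous U) :
    readVal q y (pastOf t U) =
      flow (pathExt U) ((q : ℝ≥0) : ℝ) ((U q : ℂ) + (y : ℂ) * I) := by
  refine Tendsto.limUnder_eq (tendsto_iff_dist_tendsto_zero.2 ?_)
  set Q : ℝ := ((q : ℝ≥0) : ℝ)
  have hQ : 0 ≤ Q := NNReal.coe_nonneg _
  let f : C(unitInterval, ℝ) :=
    ⟨fun x => pathExt U (Q * x), (continuous_pathExt hU).comp (by fun_prop)⟩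
  have hlim := (bernsteinApproximation_uniform f).comp (tendsto_add_atTop_nat 1)
  rw [tendsto_iff_dist_tendsto_zero] at hlim
  have hE := hlim.const_mul (Real.exp (2 / y ^ 2 * Q))
  rw [mul_zero] at hE
  refine squeeze_zero (fun _ => dist_nonneg) (fun n => ?_) hE
  have hgrid : ∀ k : Fin (n + 2), pastOf t U (grid q n k) = f (bernstein.z k) := fun k => by
    show U _ = U _
    congr 1
    rw [← Real.toNNReal_coe (r := (grid q n k : ℝ≥0))]
    congr 1
    simp [grid, bernstein.z, Q, mul_div_assoc]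
  have hlast : pastOf t U (grid q n (Fin.last (n + 1))) = U q := by
    show U _ = U _
    congr 1
    simp [grid]
  unfold approxVal
  dsimp only
  rw [hlast]
  refine (dist_flow_drive (continuous_interp _ _ _) (continuous_pathExt hU) hy hQ
    (by rw [point_im]) (by rw [point_im]) (M := dist (bernsteinApproximation (n + 1) f) f)
    fun u hu => ?_).trans (le_of_eq (by rw [dist_self, zero_add]; rfl))
  set x := projIcc (0 : ℝ) 1 zero_le_one (u / Q) with hx
  have hux : u = Q * x := by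
    rcases hQ.eq_or_lt with h0 | hpos
    · have : u = 0 := le_antisymm (hu.2.trans h0.ge) hu.1
      simp [this, ← h0]
    · rw [hx, projIcc_of_mem _ ⟨div_nonneg hu.1 hQ, (div_le_one hpos).2 hu.2⟩]
      field_simp
  have he : interp Q n (fun k => pastOf t U (grid q n k)) u = bernsteinApproximation (n + 1) f x := by
    simp only [interp, hgrid, bernsteinApproximation.apply]
    exact Finset.sum_congr rfl fun k _ => by rw [smul_eq_mul, mul_comm]
  rw [he, show pathExt U u = f x by rw [hux]; rfl, ← Real.dist_eq]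
  exact ContinuousMap.dist_apply_le_dist x

/-- Positive heights. -/
abbrev Height : Type := {y : ℚ // 0 < y}

/-- The tip at `q` exists, read from the past. -/
def HasTip {t : ℝ≥0} (q : Iic t) (w : Past t) : Prop :=
  ∀ k : ℕ, ∃ m : ℕ, ∀ y y' : Height, (y.1 : ℝ) < 1 / ((m : ℝ) + 1) →
    (y'.1 : ℝ) < 1 / ((m : ℝ) + 1) →
      dist (readVal q y.1 w) (readVal q y'.1 w) ≤ 1 / ((k : ℝ) + 1)

/-- The tip at `q`, read from the past. -/
noncomputable def tipVal {t : ℝ≥0} (q : Iic t) (w : Past t) : ℂ :=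
  limUnder atTop fun n : ℕ => readVal q (1 / ((n : ℝ) + 1)) w

lemma measurableSet_hasTip {t : ℝ≥0} (q : Iic t) : MeasurableSet {w | HasTip q w} := by
  simp only [HasTip, ofPred_forall, ofPred_exists]
  refine MeasurableSet.iInter fun k => MeasurableSet.iUnion fun m => MeasurableSet.iInter fun y =>
    MeasurableSet.iInter fun y' => MeasurableSet.iInter fun _ => MeasurableSet.iInter fun _ => ?_
  exact measurableSet_le ((measurable_readVal q (by exact_mod_cast y.2)).dist
    (measurable_readVal q (by exact_mod_cast y'.2))) measurable_const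

lemma measurable_tipVal {t : ℝ≥0} (q : Iic t) : Measurable (tipVal q) :=
  (StronglyMeasurable.limUnder fun _ =>
    (measurable_readVal q (by positivity)).stronglyMeasurable).measurable

lemma hasTip_iff {t : ℝ≥0} (q : Iic t) (hU : Continuous U) :
    (HasTip q (pastOf t U) ↔ ∃ z, IsTip U q z) ∧
      (∀ z, IsTip U q z → tipVal q (pastOf t U) = z) := by
  set F : ℝ → ℂ := fun y => flow (pathExt U) ((q : ℝ≥0) : ℝ) ((U q : ℂ) + (y : ℂ) * I) with hF
  have hrv : ∀ y : ℝ, 0 < y → readVal q y (pastOf t U) = F y := fun y hy => readVal_pastOf q hy hU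
  refine ⟨⟨fun h => ?_, fun ⟨z, hz⟩ k => ?_⟩, fun z hz => ?_⟩
  · have hcont : ∀ y : ℝ, 0 < y → ContinuousAt F y := fun y hy => by
      have hlip : LipschitzOnWith ⟨Real.exp (2 / (y / 2) ^ 2 * ((q : ℝ≥0) : ℝ)), (Real.exp_pos _).le⟩
          F (Ioi (y / 2)) := LipschitzOnWith.of_dist_le_mul fun a ha b hb => by
        refine (dist_flow_le (y := y / 2) (continuous_pathExt hU) (by linarith) (NNReal.coe_nonneg _)
          (by rw [point_im]; exact ha.out.le) (by rw [point_im]; exact hb.out.le)).trans ?_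
        rw [dist_add_left, Complex.dist_eq, ← sub_mul, ← ofReal_sub, norm_mul, Complex.norm_I,
          mul_one, Complex.norm_real, Real.norm_eq_abs, ← Real.dist_eq]
        exact le_rfl
      exact hlip.continuousOn.continuousAt (Ioi_mem_nhds (by linarith))
    have hcauchy : Cauchy (map F (𝓝[>] 0)) := by
      refine Metric.cauchy_iff.2 ⟨inferInstance, fun ε hε => ?_⟩
      obtain ⟨k, hk⟩ := exists_nat_one_div_lt hε
      obtain ⟨m, hm⟩ := h k
      refine ⟨F '' Ioo 0 (1 / ((m : ℝ) + 1)),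
        image_mem_map (Ioo_mem_nhdsGT (by positivity)), ?_⟩
      rintro _ ⟨a, ha, rfl⟩ _ ⟨b, hb, rfl⟩
      refine lt_of_le_of_lt ?_ hk
      -- approximate by rational heights
      have key : ∀ a : ℝ, a ∈ Ioo (0 : ℝ) (1 / ((m : ℝ) + 1)) → ∀ δ : ℝ, 0 < δ → ∃ y : Height,
          (y.1 : ℝ) < 1 / ((m : ℝ) + 1) ∧ dist (F y.1) (F a) < δ := by
        intro a ha δ hδ
        obtain ⟨η, hη, hη'⟩ := Metric.continuousAt_iff.1 (hcont a ha.1) δ hδ
        obtain ⟨r, hr1, hr2⟩ := exists_rat_btwn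
          (show max (a - η) (a / 2) < a by
            have := ha.1
            exact max_lt (by linarith) (by linarith))
        have hr0 : (0 : ℝ) < r := by linarith [le_max_right (a - η) (a / 2), ha.1]
        refine ⟨⟨r, by exact_mod_cast hr0⟩, by simp only; linarith [ha.2], hη' ?_⟩
        rw [Real.dist_eq, abs_lt]
        constructor <;> simp only <;> linarith [le_max_left (a - η) (a / 2)]
      refine le_of_forall_pos_le_add fun δ hδ => ?_
      obtain ⟨y, hy, hya⟩ := key a ha (δ / 2) (by linarith)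
      obtain ⟨y', hy', hyb⟩ := key b hb (δ / 2) (by linarith)
      have := hm y y' hy hy'
      rw [hrv _ (by exact_mod_cast y.2), hrv _ (by exact_mod_cast y'.2)] at this
      rw [dist_comm] at hya
      linarith [dist_triangle4 (F a) (F y.1) (F y'.1) (F b)]
    exact ⟨limUnder (𝓝[>] 0) F, tendsto_nhds_limUnder (cauchy_iff_exists_le_nhds.1 hcauchy)⟩
  · have hev := Metric.tendsto_nhds.1 hz (1 / (2 * ((k : ℝ) + 1))) (by positivity)
    obtain ⟨δ, hδ, hδ'⟩ := Metric.mem_nhdsWithin_iff.1 hev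
    obtain ⟨m, hm⟩ := exists_nat_one_div_lt hδ
    refine ⟨m, fun y y' hy hy' => ?_⟩
    have hmem : ∀ y : Height, (y.1 : ℝ) < 1 / ((m : ℝ) + 1) →
        dist (F y.1) z < 1 / (2 * ((k : ℝ) + 1)) := fun y hy => hδ' ⟨by
      rw [Metric.mem_ball, Real.dist_eq, sub_zero, abs_of_pos (by exact_mod_cast y.2)]
      linarith, show (0 : ℝ) < y.1 by exact_mod_cast y.2⟩
    rw [hrv _ (by exact_mod_cast y.2), hrv _ (by exact_mod_cast y'.2)]
    have h2 : 1 / ((k : ℝ) + 1) = 1 / (2 * ((k : ℝ) + 1)) + 1 / (2 * ((k : ℝ) + 1)) := by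
      field_simp; ring
    rw [h2]
    exact (dist_triangle_right _ _ z).trans (add_le_add (hmem y hy).le (hmem y' hy').le)
  · refine Tendsto.limUnder_eq ?_
    refine (hz.comp (tendsto_nhdsWithin_iff.2 ⟨tendsto_one_div_add_atTop_nhds_zero_nat,
      .of_forall fun n => show (0 : ℝ) < 1 / ((n : ℝ) + 1) by positivity⟩)).congr fun n => ?_
    exact (hrv _ (by positivity)).symm

/-- The past has a cheap cover of the tips above level `a`. -/
def CoverEvent (h : ℝ → ℝ) (c : ℝ≥0∞) (a : ℝ) (s t : ℝ≥0) (w : Past t) : Prop :=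
  ∀ n : ℕ, ∃ V, Cheap h c n V ∧ ∃ m : ℕ, ∀ q : ℚ≥0, ∀ hq : (q : ℝ≥0) ≤ t, s ≤ (q : ℝ≥0) →
    HasTip ⟨(q : ℝ≥0), hq⟩ w → a - 1 / ((m : ℝ) + 1) < (tipVal ⟨(q : ℝ≥0), hq⟩ w).im →
      tipVal ⟨(q : ℝ≥0), hq⟩ w ∉ Metric.thickening (1 / ((m : ℝ) + 1)) (joinedAll V)ᶜ

lemma measurableSet_coverEvent (h : ℝ → ℝ) (c : ℝ≥0∞) (a : ℝ) (s t : ℝ≥0) :
    MeasurableSet {w | CoverEvent h c a s t w} := by
  have : Countable Base := (TopologicalSpace.countable_countableBasis ℂ).to_subtype
  simp only [CoverEvent, ofPred_forall, ofPred_exists, ofPred_and]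
  refine MeasurableSet.iInter fun n => MeasurableSet.iUnion fun V =>
    (MeasurableSet.const _).inter (MeasurableSet.iUnion fun m => MeasurableSet.iInter fun q =>
      MeasurableSet.iInter fun hq => MeasurableSet.iInter fun _ => ?_)
  have hv := measurable_tipVal (⟨(q : ℝ≥0), hq⟩ : Iic t)
  convert (measurableSet_hasTip (⟨(q : ℝ≥0), hq⟩ : Iic t)).compl.union
    ((measurableSet_lt (f := fun _ : Past t => a - 1 / ((m : ℝ) + 1)) measurable_const
      (Complex.measurable_im.comp hv)).compl.union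
      (hv (Metric.isOpen_thickening (δ := 1 / ((m : ℝ) + 1)) (E := (joinedAll V)ᶜ)).measurableSet).compl)
    using 1
  ext w
  simp only [mem_ofPred_eq, mem_union, mem_compl_iff, mem_preimage, Function.comp]
  tauto

/-- The event computes the measure. -/
lemma coverEvent_iff {h : ℝ → ℝ} (hh : IsGauge h) {c : ℝ≥0∞} (hc : c ≠ ∞) (a : ℝ) {s t : ℝ≥0}
    (hU : Continuous U) :
    CoverEvent h c a s t (pastOf t U) ↔
      gaugeMeasure h (closure (tips U s t) ∩ {z | a ≤ z.im}) ≤ c := by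
  have hb : Bornology.IsBounded (range (Subtype.val : tips U s t → ℂ)) := by
    rw [Subtype.range_coe]; exact tips_bounded hU s t
  have hset : upperPart (Subtype.val : tips U s t → ℂ) a =
      closure (tips U s t) ∩ {z | a ≤ z.im} := by rw [upperPart, Subtype.range_coe]
  rw [← hset, gaugeMeasure_le_iff hh (isCompact_upperPart hb a) hc]
  refine forall_congr' fun n => exists_congr fun V => and_congr_right fun _ => ?_
  rw [upperPart_subset_iff hb a (isOpen_joinedAll V)]
  refine exists_congr fun m => ⟨fun H i => ?_, fun H q hq hsq htip hlt => ?_⟩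
  · obtain ⟨z, q, hsq, hq, hz⟩ := i
    obtain ⟨h1, h2⟩ := hasTip_iff (⟨(q : ℝ≥0), hq⟩ : Iic t) hU
    have := H q hq hsq (h1.2 ⟨z, hz⟩)
    rw [h2 z hz] at this
    exact this
  · obtain ⟨h1, h2⟩ := hasTip_iff (⟨(q : ℝ≥0), hq⟩ : Iic t) hU
    obtain ⟨z, hz⟩ := h1.1 htip
    rw [h2 z hz] at hlt ⊢
    exact H ⟨z, q, hsq, hq, hz⟩ hlt

end Vale.Agent.P164
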